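import Mathlib
import Vale.Agent.P136.Full.Defs

/-!
# P136: boundary points of smooth domains and the weights of singular fields
-/

open MeasureTheory Filter Set Metric
open scoped Topology ContDiff

namespace Vale.Agent.P136.Full.Boundary

noncomputable section

/-- Euclidean product of real vectors. -/
def edot (a b : Space) : ℝ := ∑ i, a i * b i

theorem abs_edot_le {e : Space} (he : ∀ i, |e i| ≤ 1) (v : Space) : |edot e v| ≤ 3 * ‖v‖ := by
  refine (Finset.abs_sum_le_sum_abs _ _).trans ?_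
  calc ∑ i, |e i * v i| ≤ ∑ _i : Fin 3, ‖v‖ := by
        refine Finset.sum_le_sum fun i _ => ?_
        rw [abs_mul]
        exact (mul_le_of_le_one_left (abs_nonneg _) (he i)).trans
          ((Real.norm_eq_abs _).symm.le.trans (norm_le_pi_norm v i))
    _ = 3 * ‖v‖ := by simp

theorem abs_le_one_of_unit {e : Space} (he : e 0 ^ 2 + e 1 ^ 2 + e 2 ^ 2 = 1) (i : Fin 3) :
    |e i| ≤ 1 := by
  refine abs_le_one_iff_mul_self_le_one.2 ?_
  fin_cases i <;> simp <;> nlinarith [sq_nonneg (e 0), sq_nonneg (e 1), sq_nonneg (e 2)]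

/-- Smooth functions are Lipschitz and have a second order Taylor bound on balls. -/
theorem taylor {f : Space → ℝ} (hf : ContDiff ℝ ∞ f) (z : Space) (r : ℝ) :
    ∃ C : ℝ, 0 ≤ C ∧ ∀ x ∈ closedBall z r, |f x - f z| ≤ C * ‖x - z‖ ∧
      |f x - f z - fderiv ℝ f z (x - z)| ≤ C * ‖x - z‖ ^ 2 := by
  have hD : ContDiff ℝ ∞ (fderiv ℝ f) := hf.fderiv_right (m := ∞) (by simp)
  have hc : Continuous (fderiv ℝ (fderiv ℝ f)) := hD.continuous_fderiv (by simp)
  have hcpt := isCompact_closedBall z r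
  obtain ⟨C₁, h₁'⟩ := hcpt.bddAbove_image (f := fun w => ‖fderiv ℝ (fderiv ℝ f) w‖)
    (Continuous.continuousOn ((continuous_norm (E := Space →L[ℝ] Space →L[ℝ] ℝ)).comp hc))
  obtain ⟨C₂, h₂'⟩ := hcpt.bddAbove_image hD.continuous.norm.continuousOn
  have h₁ : ∀ w ∈ closedBall z r, ‖fderiv ℝ (fderiv ℝ f) w‖ ≤ C₁ := fun w hw =>
    h₁' (mem_image_of_mem _ hw)
  have h₂ : ∀ w ∈ closedBall z r, ‖fderiv ℝ f w‖ ≤ C₂ := fun w hw => h₂' (mem_image_of_mem _ hw)
  refine ⟨max 0 (max C₁ C₂), le_max_left _ _, fun x hx => ?_⟩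
  have hz : z ∈ closedBall z r := mem_closedBall_self (dist_nonneg.trans (mem_closedBall.1 hx))
  have hsub : closedBall z ‖x - z‖ ⊆ closedBall z r :=
    closedBall_subset_closedBall (by simpa [dist_eq_norm] using hx)
  constructor
  · have h := (convex_closedBall z r).norm_image_sub_le_of_norm_fderiv_le
      (fun w _ => hf.differentiable (by simp) w)
      (fun w hw => (h₂ w hw).trans ((le_max_right C₁ C₂).trans (le_max_right 0 _))) hz hx
    simpa using h
  · have hlip : ∀ w ∈ closedBall z ‖x - z‖,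
        ‖fderiv ℝ f w - fderiv ℝ f z‖ ≤ max 0 (max C₁ C₂) * ‖x - z‖ := fun w hw => by
      refine ((convex_closedBall z r).norm_image_sub_le_of_norm_fderiv_le
        (fun w _ => hD.differentiable (by simp) w)
        (fun w hw => (h₁ w hw).trans ((le_max_left C₁ C₂).trans (le_max_right 0 _))) hz
        (hsub hw)).trans ?_
      gcongr
      simpa [dist_eq_norm] using hw
    have h := (convex_closedBall z ‖x - z‖).norm_image_sub_le_of_norm_fderiv_le'
      (fun w _ => hf.differentiable (by simp) w) hlip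
      (mem_closedBall_self (norm_nonneg _)) (by simp [dist_eq_norm] : x ∈ closedBall z ‖x - z‖)
    rw [sq, ← mul_assoc]
    simpa using h

/-- Inner normal data at a boundary point. -/
structure Probe (Ω : Set Space) (z e : Space) (K d₀ : ℝ) : Prop where
  unit : e 0 ^ 2 + e 1 ^ 2 + e 2 ^ 2 = 1
  d₀_pos : 0 < d₀
  K_nonneg : 0 ≤ K
  flat : ∀ x ∈ Ω, edot e (x - z) ≤ K * ‖x - z‖ ^ 2
  away : ∀ d, 0 < d → d ≤ d₀ → ∀ x ∈ Ω, d / 4 ≤ ‖x - (z + d • e)‖
  inside : ∀ d, 0 < d → d ≤ d₀ → ball (z - (3 * d) • e) (d / 10) ⊆ Ω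
  tangent : ∀ g : Space → ℝ, ContDiff ℝ ∞ g → (∀ w ∈ frontier Ω, g w = 0) →
    ∃ c : ℝ, ∀ v, fderiv ℝ g z v = c * edot e v

theorem exists_normal {z : Space} {ρ : Space → ℝ} (hL : fderiv ℝ ρ z ≠ 0) :
    ∃ e : Space, ∃ ℓ : ℝ, e 0 ^ 2 + e 1 ^ 2 + e 2 ^ 2 = 1 ∧ 0 < ℓ ∧
      ∀ v, fderiv ℝ ρ z v = ℓ * edot e v := by
  set L := fderiv ℝ ρ z
  set p : Space := fun i => L (Pi.single i 1) with hp
  have hLv : ∀ v : Space, L v = edot p v := by
    intro v
    conv_lhs => rw [← Finset.univ_sum_single v]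
    rw [map_sum]
    refine Finset.sum_congr rfl fun i _ => ?_
    rw [show (Pi.single i (v i) : Space) = v i • Pi.single i (1 : ℝ) by simp [← Pi.single_smul],
      map_smul, smul_eq_mul, mul_comm]
  set S := p 0 ^ 2 + p 1 ^ 2 + p 2 ^ 2 with hS
  have hSpos : 0 < S := by
    refine lt_of_le_of_ne (by positivity) fun h0 => hL ?_
    have h1 : p 0 = 0 ∧ p 1 = 0 ∧ p 2 = 0 := by
      refine ⟨?_, ?_, ?_⟩ <;> nlinarith [sq_nonneg (p 0), sq_nonneg (p 1), sq_nonneg (p 2)]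
    refine ContinuousLinearMap.ext fun v => ?_
    rw [hLv]
    simp [edot, Fin.sum_univ_three, h1.1, h1.2.1, h1.2.2]
  refine ⟨(Real.sqrt S)⁻¹ • p, Real.sqrt S, ?_, Real.sqrt_pos.2 hSpos, fun v => ?_⟩
  · simp only [Pi.smul_apply, smul_eq_mul, mul_pow, ← mul_add, ← hS, inv_pow,
      Real.sq_sqrt hSpos.le]
    exact inv_mul_cancel₀ hSpos.ne'
  · rw [hLv, edot, edot, Finset.mul_sum]
    refine Finset.sum_congr rfl fun i _ => ?_
    have := (Real.sqrt_pos.2 hSpos).ne'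
    simp only [Pi.smul_apply, smul_eq_mul]
    field_simp

theorem edot_self {e : Space} (he : e 0 ^ 2 + e 1 ^ 2 + e 2 ^ 2 = 1) : edot e e = 1 := by
  rw [← he]; simp [edot, Fin.sum_univ_three, sq]

theorem norm_le_one_of_unit {e : Space} (he : e 0 ^ 2 + e 1 ^ 2 + e 2 ^ 2 = 1) : ‖e‖ ≤ 1 :=
  (pi_norm_le_iff_of_nonneg one_pos.le).2 fun i => (Real.norm_eq_abs _).le.trans (abs_le_one_of_unit he i)

theorem edot_add_smul (e w : Space) (t : ℝ) : edot e (w + t • e) = edot e w + t * edot e e := by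
  simp [edot, Fin.sum_univ_three]; ring

theorem away_of_flat {Ω : Set Space} {z e : Space} {K : ℝ} (he : e 0 ^ 2 + e 1 ^ 2 + e 2 ^ 2 = 1)
    (hK : 0 ≤ K) (hflat : ∀ x ∈ Ω, edot e (x - z) ≤ K * ‖x - z‖ ^ 2) {d : ℝ} (hd : 0 < d)
    (hKd : K * d ≤ 1 / 32) {x : Space} (hx : x ∈ Ω) : d / 4 ≤ ‖x - (z + d • e)‖ := by
  by_contra hlt
  rw [not_le] at hlt
  have e1 : x - z = (x - (z + d • e)) + d • e := by abel
  have h1 : edot e (x - z) = edot e (x - (z + d • e)) + d := by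
    rw [e1, edot_add_smul, edot_self he, mul_one]
  have h2 := abs_le.1 (abs_edot_le (abs_le_one_of_unit he) (x - (z + d • e)))
  have h3 : ‖x - z‖ ≤ 2 * d := by
    rw [e1]
    refine (norm_add_le _ _).trans ?_
    rw [norm_smul, Real.norm_eq_abs, abs_of_pos hd]
    nlinarith [norm_le_one_of_unit he]
  have h4 : ‖x - z‖ ^ 2 ≤ (2 * d) ^ 2 := pow_le_pow_left₀ (norm_nonneg _) h3 2
  have h5 := hflat x hx
  nlinarith [h2.1, mul_le_mul_of_nonneg_left h4 hK, mul_le_mul_of_nonneg_right hKd hd.le]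

theorem inside_of_taylor {z e : Space} {ρ : Space → ℝ} {ℓ C d : ℝ}
    (he : e 0 ^ 2 + e 1 ^ 2 + e 2 ^ 2 = 1) (hℓ : 0 < ℓ) (hρz : ρ z = 0) (hC0 : 0 ≤ C)
    (hd : 0 < d) (hCd : C * d ≤ ℓ / 32) {x : Space} (hx : ‖x - (z - (3 * d) • e)‖ < d / 10)
    (hT : |ρ x - ρ z - ℓ * edot e (x - z)| ≤ C * ‖x - z‖ ^ 2) : ρ x < 0 := by
  have e1 : x - z = (x - (z - (3 * d) • e)) + (-(3 * d)) • e := by rw [neg_smul]; abel
  have h1 : edot e (x - z) = edot e (x - (z - (3 * d) • e)) - 3 * d := by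
    rw [e1, edot_add_smul, edot_self he, mul_one, ← sub_eq_add_neg]
  have h2 := abs_le.1 (abs_edot_le (abs_le_one_of_unit he) (x - (z - (3 * d) • e)))
  have h3 : ‖x - z‖ ≤ 4 * d := by
    rw [e1]
    refine (norm_add_le _ _).trans ?_
    rw [norm_smul, Real.norm_eq_abs, abs_neg, abs_of_pos (by linarith : (0 : ℝ) < 3 * d)]
    nlinarith [norm_le_one_of_unit he]
  have h4 : ‖x - z‖ ^ 2 ≤ (4 * d) ^ 2 := pow_le_pow_left₀ (norm_nonneg _) h3 2
  have h5 := (abs_le.1 hT).2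
  have h6 : edot e (x - z) ≤ -(2 * d) := by linarith [h2.2]
  nlinarith [mul_le_mul_of_nonneg_left h4 hC0, mul_le_mul_of_nonneg_right hCd hd.le,
    mul_le_mul_of_nonneg_left h6 hℓ.le, mul_pos hℓ hd]

theorem eq_zero_on_boundary {Ω : Set Space} (hΩ : IsOpen Ω) {U : Set Space} (hU : IsOpen U)
    {ρ : Space → ℝ} (hΩU : Ω ∩ U = {x ∈ U | ρ x < 0}) {w : Space} (hw : w ∈ U) (hw0 : ρ w = 0)
    (hne : fderiv ℝ ρ w ≠ 0) : w ∈ frontier Ω := by
  refine ⟨?_, fun hi => ?_⟩
  · rw [mem_closure_iff_nhds]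
    intro t ht
    by_contra hne'
    rw [nonempty_iff_ne_empty, not_not] at hne'
    have hmin : IsLocalMin ρ w := by
      filter_upwards [ht, hU.mem_nhds hw] with v hv hvU
      rw [hw0]
      refine not_lt.1 fun hlt => ?_
      have h1 : v ∈ {x ∈ U | ρ x < 0} := ⟨hvU, hlt⟩
      rw [← hΩU] at h1
      exact (eq_empty_iff_forall_notMem.1 hne' v) ⟨hv, h1.1⟩
    exact hne hmin.fderiv_eq_zero
  · rw [hΩ.interior_eq] at hi
    have h1 : w ∈ Ω ∩ U := ⟨hi, hw⟩
    rw [hΩU] at h1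
    exact lt_irrefl _ (hw0 ▸ h1.2)

theorem exists_probe {Ω : Set Space} (h : SmoothDomain Ω) {z : Space} (hz : z ∈ frontier Ω) :
    ∃ e K d₀, Probe Ω z e K d₀ := by
  obtain ⟨U, hU, hzU, ρ, hρ, hL, hΩU⟩ := h.boundary z hz
  have hzΩ : z ∉ Ω := fun hm => hz.2 (by rwa [h.isOpen.interior_eq])
  have hρz : ρ z = 0 := by
    refine le_antisymm (not_lt.1 fun hpos => ?_) (not_lt.1 fun hn => hzΩ ?_)
    · obtain ⟨v, ⟨hv1, hv2⟩, hv3⟩ := mem_closure_iff_nhds.1 hz.1 _ (inter_mem (hU.mem_nhds hzU)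
        ((isOpen_lt continuous_const hρ.continuous).mem_nhds hpos))
      have h1 : v ∈ Ω ∩ U := ⟨hv3, hv1⟩
      rw [hΩU] at h1
      exact lt_irrefl _ (h1.2.trans hv2)
    · have h1 : z ∈ {x ∈ U | ρ x < 0} := ⟨hzU, hn⟩
      rw [← hΩU] at h1
      exact h1.1
  obtain ⟨e, ℓ, heu, hℓ0, hLe⟩ := exists_normal hL
  obtain ⟨r, hr, hrU⟩ := Metric.isOpen_iff.1 hU z hzU
  obtain ⟨C, hC0, hC⟩ := taylor hρ z r
  set K := C / ℓ + 3 / r with hK
  have hK0 : 0 ≤ K := by positivity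
  have hflat : ∀ x ∈ Ω, edot e (x - z) ≤ K * ‖x - z‖ ^ 2 := by
    intro x hx
    by_cases hb : x ∈ ball z r
    · have h1 : x ∈ Ω ∩ U := ⟨hx, hrU hb⟩
      rw [hΩU] at h1
      have h2 := (abs_le.1 (hC x (ball_subset_closedBall hb)).2).1
      rw [hρz, hLe] at h2
      have h3 : edot e (x - z) ≤ C / ℓ * ‖x - z‖ ^ 2 := by
        rw [div_mul_eq_mul_div, le_div_iff₀ hℓ0]
        linarith [h1.2]
      refine h3.trans ?_
      gcongr
      rw [hK]; linarith [div_pos (three_pos (α := ℝ)) hr]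
    · rw [mem_ball, dist_eq_norm, not_lt] at hb
      refine ((le_abs_self _).trans (abs_edot_le (abs_le_one_of_unit heu) _)).trans ?_
      calc 3 * ‖x - z‖ ≤ 3 / r * ‖x - z‖ ^ 2 := by
            rw [div_mul_eq_mul_div, le_div_iff₀ hr]; nlinarith [norm_nonneg (x - z)]
        _ ≤ K * ‖x - z‖ ^ 2 := by
            gcongr
            rw [hK]; linarith [div_nonneg hC0 hℓ0.le]
  refine ⟨e, K, min (r / 8) (1 / (32 * (K + 1))), heu, by positivity, hK0, hflat, ?_, ?_, ?_⟩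
  · intro d hd hd₀ x hx
    have hd1 := hd₀.trans (min_le_right _ _)
    rw [le_div_iff₀ (by positivity)] at hd1
    exact away_of_flat heu hK0 hflat hd (by nlinarith) hx
  · intro d hd hd₀ x hx
    have hd1 := hd₀.trans (min_le_right _ _)
    rw [le_div_iff₀ (by positivity)] at hd1
    rw [mem_ball, dist_eq_norm] at hx
    have hxb : x ∈ ball z r := by
      rw [mem_ball, dist_eq_norm, show x - z = (x - (z - (3 * d) • e)) - (3 * d) • e by abel]
      refine (norm_sub_le _ _).trans_lt ?_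
      rw [norm_smul, Real.norm_eq_abs, abs_of_pos (by linarith : (0 : ℝ) < 3 * d)]
      nlinarith [norm_le_one_of_unit heu, hd₀.trans (min_le_left _ _)]
    have h6 : C * d ≤ ℓ / 32 := by
      have : C / ℓ * d ≤ 1 / 32 := by
        have : C / ℓ ≤ K := by rw [hK]; linarith [div_pos (three_pos (α := ℝ)) hr]
        nlinarith
      rw [div_mul_eq_mul_div, div_le_iff₀ hℓ0] at this
      linarith
    have hT := (hC x (ball_subset_closedBall hxb)).2
    rw [hLe] at hT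
    have h7 : x ∈ {x ∈ U | ρ x < 0} := ⟨hrU hxb, inside_of_taylor heu hℓ0 hρz hC0 hd h6 hx hT⟩
    rw [← hΩU] at h7
    exact h7.1
  · intro g hg hg0
    set V : Set Space := U ∩ {w | fderiv ℝ ρ w e ≠ 0} with hV
    have hVn : V ∈ 𝓝 z := by
      refine inter_mem (hU.mem_nhds hzU) (((isOpen_ne).preimage
        ((hρ.continuous_fderiv (by simp)).clm_apply continuous_const)).mem_nhds ?_)
      change fderiv ℝ ρ z e ≠ 0
      rw [hLe, edot_self heu, mul_one]
      exact hℓ0.ne'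
    have hext : IsLocalExtrOn g {w | ρ w = ρ z} z := by
      refine Or.inl ?_
      filter_upwards [inter_mem_nhdsWithin _ hVn] with v hv
      rw [hg0 z hz, hg0 v (eq_zero_on_boundary h.isOpen hU hΩU hv.2.1 (hv.1.trans hρz)
        fun h0 => hv.2.2 (by simp [h0]))]
    obtain ⟨a, b, hab, hlin⟩ := hext.exists_multipliers_of_hasStrictFDerivAt_1d
      (hρ.contDiffAt.hasStrictFDerivAt (by simp)) (hg.contDiffAt.hasStrictFDerivAt (by simp))
    have hb : b ≠ 0 := by
      intro hb0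
      rw [hb0, zero_smul, add_zero] at hlin
      refine hab (Prod.ext ?_ hb0)
      have := congrArg (fun T => T e) hlin
      simpa [hLe, edot_self heu, hℓ0.ne'] using this
    refine ⟨-(a * ℓ) / b, fun v => ?_⟩
    have h1 := congrArg (fun T => T v) hlin
    simp only [add_apply, smul_apply, smul_eq_mul, zero_apply, hLe] at h1
    field_simp
    linarith

/-! ### Weights -/

/-- The weight `(d + ‖x - y‖)^(-p)`. -/
def wt (y : Space) (d : ℝ) (p : ℕ) (x : Space) : ℝ := (d + ‖x - y‖)⁻¹ ^ p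

theorem wt_nonneg {y : Space} {d : ℝ} (hd : 0 < d) (p : ℕ) (x : Space) : 0 ≤ wt y d p x :=
  pow_nonneg (inv_nonneg.2 (by positivity)) p

theorem continuous_wt {y : Space} {d : ℝ} (hd : 0 < d) (p : ℕ) : Continuous (wt y d p) :=
  (((continuous_const.add (continuous_id.sub continuous_const).norm)).inv₀
    fun x => (by positivity : (0 : ℝ) < d + ‖x - y‖).ne').pow p

theorem integrable_wt {y : Space} {d : ℝ} (hd : 0 < d) {p : ℕ} (hp : 4 ≤ p) :
    Integrable (wt y d p) ∧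
      ∫ x, wt y d p x = d⁻¹ ^ p * d ^ 3 * ∫ x : Space, wt 0 1 p x := by
  have hbase : Integrable (wt 0 1 p) := by
    have h := integrable_one_add_norm (E := Space) (μ := volume) (r := (p : ℝ))
      (by rw [Module.finrank_pi]; simp; exact_mod_cast hp)
    refine h.congr (Eventually.of_forall fun x => ?_)
    simp [wt, Real.rpow_neg (show 0 ≤ 1 + ‖x‖ by positivity)]
  have key : ∀ x, wt y d p x = d⁻¹ ^ p * wt 0 1 p (d⁻¹ • (x - y)) := by
    intro x
    simp only [wt, sub_zero, norm_smul, Real.norm_eq_abs, abs_of_pos (inv_pos.2 hd), ← mul_pow,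
      ← mul_inv]
    congr 2
    field_simp
  constructor
  · rw [funext key]
    exact (((integrable_comp_smul_iff volume (wt 0 1 p) (inv_ne_zero hd.ne')).2 hbase).comp_sub_right y).const_mul _
  · simp only [funext key]
    rw [integral_const_mul, integral_sub_right_eq_self (fun x => wt 0 1 p (d⁻¹ • x)) y,
      Measure.integral_comp_inv_smul volume (wt 0 1 p) d, Module.finrank_pi]
    simp [abs_of_pos (pow_pos hd 3), smul_eq_mul]
    ring

theorem setIntegral_wt_le {y : Space} {d : ℝ} (hd : 0 < d) {p : ℕ} (hp : 4 ≤ p) (s : Set Space) :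
    ∫ x in s, wt y d p x ≤ d⁻¹ ^ p * d ^ 3 * ∫ x : Space, wt 0 1 p x :=
  (setIntegral_le_integral (integrable_wt hd hp).1
    (Eventually.of_forall fun x => wt_nonneg hd p x)).trans_eq (integrable_wt hd hp).2

theorem integral_wt_nonneg (p : ℕ) : 0 ≤ ∫ x : Space, wt 0 1 p x :=
  integral_nonneg fun x => wt_nonneg one_pos p x

end

end Vale.Agent.P136.Full.Boundary
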