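import Mathlib
import Vale.Agent.P136.Full.Alg.Coef

/-!
# P136: singular solutions of the Lamé system with constant moduli

The two fields are `X / r³` and `2 μ s e / r³ + 3 A s² X / r⁵`, with `X = x - y`, `s = e · X`; the
Euclidean radius is regularised inside a small ball about `y`.
-/

open scoped ContDiff Topology

namespace Vale.Agent.P136.Full.Boundary

noncomputable section

open Filter

/-- Squared Euclidean distance. -/
def sqd (y x : Space) : ℝ := ∑ i, (x i - y i) ^ 2

/-- Squared distance, regularised where it is below `2 ε`. -/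
def qreg (y : Space) (ε : ℝ) (x : Space) : ℝ :=
  sqd y x + ε * (1 - Real.smoothTransition (sqd y x / ε - 1))

/-- The inverse regularised distance. -/
def inv (y : Space) (ε : ℝ) (x : Space) : ℂ := ((Real.sqrt (qreg y ε x))⁻¹ : ℝ)

/-- The coordinates relative to `y`. -/
def rel (y : Space) (k : Fin 3) (x : Space) : ℂ := (x k - y k : ℝ)

/-- The component along `e`. -/
def along (y e : Space) (x : Space) : ℂ := ∑ k, (e k : ℂ) * rel y k x

variable (y e : Space) (ε : ℝ)

theorem qreg_pos (hε : 0 < ε) (x : Space) : 0 < qreg y ε x := by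
  have h0 : 0 ≤ sqd y x := Finset.sum_nonneg fun i _ => sq_nonneg _
  have h1 := Real.smoothTransition.le_one (sqd y x / ε - 1)
  unfold qreg
  rcases lt_or_ge (sqd y x) ε with h | h
  · have : sqd y x / ε - 1 ≤ 0 := by rw [sub_nonpos, div_le_one hε]; exact h.le
    rw [Real.smoothTransition.zero_of_nonpos this]
    linarith
  · nlinarith

theorem contDiff_sqd : ContDiff ℝ ∞ (sqd y) := by
  unfold sqd; fun_prop

theorem contDiff_qreg : ContDiff ℝ ∞ (qreg y ε) :=
  (contDiff_sqd y).add (contDiff_const.mul (contDiff_const.sub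
    (Real.smoothTransition.contDiff.comp (((contDiff_sqd y).div_const ε).sub contDiff_const))))

theorem contDiff_inv (hε : 0 < ε) : ContDiff ℝ ∞ (inv y ε) :=
  Complex.ofRealCLM.contDiff.comp (((contDiff_qreg y ε).sqrt fun x => (qreg_pos y ε hε x).ne').inv
    fun x => (Real.sqrt_pos.2 (qreg_pos y ε hε x)).ne')

theorem contDiff_rel (k : Fin 3) : ContDiff ℝ ∞ (rel y k) :=
  Complex.ofRealCLM.contDiff.comp ((contDiff_apply ℝ ℝ k).sub contDiff_const)

theorem contDiff_along : ContDiff ℝ ∞ (along y e) :=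
  ContDiff.sum fun k _ => contDiff_const.mul (contDiff_rel y k)

theorem pd_rel (j k : Fin 3) (x : Space) : pd j (rel y k) x = if j = k then 1 else 0 := by
  have h : DifferentiableAt ℝ (fun z : Space => z k - y k) x :=
    (differentiableAt_apply k x).sub_const _
  rw [show rel y k = fun z => ((z k - y k : ℝ) : ℂ) from rfl, pd_ofReal j h, fderiv_sub_const,
    (hasFDerivAt_apply k x).fderiv]
  by_cases hjk : j = k
  · subst hjk; simp
  · simp [hjk]

theorem pd_along (j : Fin 3) (x : Space) : pd j (along y e) x = (e j : ℂ) := by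
  have hd : ∀ k, DifferentiableAt ℝ (rel y k) x := fun k => (contDiff_rel y k).differentiable (by simp) x
  rw [show along y e = fun z => ∑ k, (e k : ℂ) * rel y k z from rfl,
    pd_sum Finset.univ j fun k _ => (differentiableAt_const _).fun_mul (hd k)]
  simp only [pd_mul j (differentiableAt_const _) (hd _), pd_const, pd_rel]
  simp

/-- Where the radius is not regularised. -/
def Far (y : Space) (ε : ℝ) (x : Space) : Prop := 2 * ε < sqd y x

theorem qreg_eq {x : Space} (hε : 0 < ε) (h : 2 * ε ≤ sqd y x) : qreg y ε x = sqd y x := by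
  have h1 : 1 ≤ sqd y x / ε - 1 := by rw [le_sub_iff_add_le, le_div_iff₀ hε]; linarith
  simp [qreg, Real.smoothTransition.one_of_one_le h1]

theorem pd_inv_dist {x : Space} (hε : 0 < ε) (h : Far y ε x) (j : Fin 3) :
    pd j (inv y ε) x = -rel y j x * inv y ε x ^ 3 := by
  have hev : inv y ε =ᶠ[𝓝 x] fun z => (((Real.sqrt (sqd y z))⁻¹ : ℝ) : ℂ) := by
    filter_upwards [(isOpen_lt continuous_const (contDiff_sqd y).continuous).mem_nhds h] with z hz
    rw [inv, qreg_eq y ε hε hz.le]
  have hpos : 0 < sqd y x := lt_trans (by linarith) h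
  have hsq : HasFDerivAt (sqd y) (∑ i, (2 * (x i - y i)) •
      ContinuousLinearMap.proj (R := ℝ) (φ := fun _ : Fin 3 => ℝ) i) x := by
    refine HasFDerivAt.fun_sum fun i _ => ?_
    simpa using ((hasFDerivAt_apply i x).sub_const (y i)).pow 2
  have hs := (hasDerivAt_inv (Real.sqrt_pos.2 hpos).ne').comp_hasFDerivAt x
    (hsq.sqrt hpos.ne')
  rw [pd_congr hev j, pd_ofReal j (by exact hs.differentiableAt)]
  rw [show fderiv ℝ (fun z => (Real.sqrt (sqd y z))⁻¹) x = _ from hs.fderiv]
  simp only [smul_apply, sum_apply, smul_eq_mul, inv, qreg_eq y ε hε h.le, rel]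
  rw [Finset.sum_eq_single j (fun k _ hk => by simp [Pi.single_eq_of_ne hk]) (by simp)]
  simp only [ContinuousLinearMap.proj_apply, Pi.single_eq_same, mul_one]
  push_cast
  have : (Real.sqrt (sqd y x) : ℂ) ≠ 0 := Complex.ofReal_ne_zero.2 (Real.sqrt_pos.2 hpos).ne'
  field_simp

theorem pd_inv_pow {x : Space} (hε : 0 < ε) (h : Far y ε x) (j : Fin 3) :
    ∀ n : ℕ, pd j (fun z => inv y ε z ^ n) x = -(n : ℂ) * rel y j x * inv y ε x ^ (n + 2)
  | 0 => by simp [pd_const]
  | n + 1 => by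
    have hd : DifferentiableAt ℝ (inv y ε) x := (contDiff_inv y ε hε).differentiable (by simp) x
    simp only [pow_succ _ n]
    rw [pd_mul j (hd.fun_pow n) hd, pd_inv_pow hε h j n, pd_inv_dist y ε hε h j]
    push_cast
    ring

theorem sum_rel_sq {x : Space} (hε : 0 < ε) (h : Far y ε x) (n : ℕ) :
    (rel y 0 x ^ 2 + rel y 1 x ^ 2 + rel y 2 x ^ 2) * inv y ε x ^ (n + 2) = inv y ε x ^ n := by
  have hpos : 0 < sqd y x := lt_trans (by linarith) h
  have e1 : rel y 0 x ^ 2 + rel y 1 x ^ 2 + rel y 2 x ^ 2 = ((sqd y x : ℝ) : ℂ) := by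
    simp [rel, sqd, Fin.sum_univ_three]
  have e2 : inv y ε x ^ 2 * ((sqd y x : ℝ) : ℂ) = 1 := by
    simp only [inv, qreg_eq y ε hε h.le, ← Complex.ofReal_pow, ← Complex.ofReal_mul]
    rw [inv_pow, Real.sq_sqrt hpos.le, inv_mul_cancel₀ hpos.ne', Complex.ofReal_one]
  rw [e1, pow_add]
  linear_combination (inv y ε x ^ n) * e2

/-- Kronecker's delta. -/
def delta (i j : Fin 3) : ℂ := if i = j then 1 else 0

/-- The field `X / r³`. -/
def phi1 (x : Space) : C3 := fun i => rel y i x * inv y ε x ^ 3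

/-- Its gradient. -/
def der1 (i j : Fin 3) (x : Space) : ℂ :=
  delta i j * inv y ε x ^ 3 - 3 * rel y i x * rel y j x * inv y ε x ^ 5

/-- The field `2 μ s e / r³ + 3 A s² X / r⁵`. -/
def phi2 (μ₀ A₀ : ℂ) (x : Space) : C3 := fun i =>
  2 * μ₀ * (along y e x * (e i : ℂ)) * inv y ε x ^ 3 +
    3 * A₀ * (along y e x ^ 2 * rel y i x) * inv y ε x ^ 5

/-- Its gradient. -/
def der2 (μ₀ A₀ : ℂ) (i j : Fin 3) (x : Space) : ℂ :=
  2 * μ₀ * ((e i : ℂ) * (e j : ℂ)) * inv y ε x ^ 3 -
    6 * μ₀ * (along y e x * (e i : ℂ) * rel y j x) * inv y ε x ^ 5 +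
    3 * A₀ * ((2 * along y e x * (e j : ℂ) * rel y i x + along y e x ^ 2 * delta i j) * inv y ε x ^ 5 -
      5 * (along y e x ^ 2 * rel y i x * rel y j x) * inv y ε x ^ 7)

/-- The divergence of the second field. -/
def div2 (μ₀ : ℂ) (x : Space) : ℂ :=
  2 * μ₀ * (inv y ε x ^ 3 - 3 * along y e x ^ 2 * inv y ε x ^ 5)

variable {y e ε}

theorem contDiff_phi1 (hε : 0 < ε) : ContDiff ℝ ∞ (phi1 y ε) :=
  contDiff_pi.2 fun i => (contDiff_rel y i).mul ((contDiff_inv y ε hε).pow 3)

theorem contDiff_phi2 (hε : 0 < ε) (μ₀ A₀ : ℂ) : ContDiff ℝ ∞ (phi2 y e ε μ₀ A₀) := by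
  have h1 := contDiff_inv y ε hε
  have h2 := contDiff_along y e
  have h3 := fun i => contDiff_rel y i
  refine contDiff_pi.2 fun i => ?_
  unfold phi2
  fun_prop

theorem delta_eq (i j : Fin 3) : (if j = i then (1 : ℂ) else 0) = delta i j := by
  simp [delta, eq_comm]

theorem pd_phi1 {x : Space} (hε : 0 < ε) (h : Far y ε x) (i j : Fin 3) :
    pd j (fun z => phi1 y ε z i) x = der1 y ε i j x := by
  have h1 : DifferentiableAt ℝ (inv y ε) x := (contDiff_inv y ε hε).differentiable (by simp) x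
  have h3 : DifferentiableAt ℝ (rel y i) x := (contDiff_rel y i).differentiable (by simp) x
  simp only [phi1]
  rw [pd_mul j h3 (h1.fun_pow 3), pd_rel, pd_inv_pow y ε hε h, delta_eq]
  simp only [der1]
  push_cast
  ring

theorem pd_phi2 {x : Space} (hε : 0 < ε) (h : Far y ε x) (μ₀ A₀ : ℂ) (i j : Fin 3) :
    pd j (fun z => phi2 y e ε μ₀ A₀ z i) x = der2 y e ε μ₀ A₀ i j x := by
  have h1 : DifferentiableAt ℝ (inv y ε) x := (contDiff_inv y ε hε).differentiable (by simp) x
  have h2 : DifferentiableAt ℝ (along y e) x := (contDiff_along y e).differentiable (by simp) x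
  have h3 : ∀ k, DifferentiableAt ℝ (rel y k) x := fun k => (contDiff_rel y k).differentiable (by simp) x
  simp only [phi2, sq]
  simp (disch := fun_prop) only [pd_add, pd_mul, pd_const, pd_rel, pd_along, pd_inv_pow y ε hε h,
    delta_eq]
  simp only [der2]
  push_cast
  ring

theorem trace_der1 {x : Space} (hε : 0 < ε) (h : Far y ε x) : ∑ i, der1 y ε i i x = 0 := by
  simp only [Fin.sum_univ_three, der1, delta, if_pos]
  linear_combination (-3) * sum_rel_sq y ε hε h 3

theorem along_eq (x : Space) :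
    along y e x = e 0 * rel y 0 x + e 1 * rel y 1 x + e 2 * rel y 2 x := by
  simp [along, Fin.sum_univ_three]

theorem trace_der2 {x : Space} (hε : 0 < ε) (h : Far y ε x)
    (he : e 0 ^ 2 + e 1 ^ 2 + e 2 ^ 2 = 1) (μ₀ A₀ : ℂ) :
    ∑ i, der2 y e ε μ₀ A₀ i i x = div2 y e ε μ₀ x := by
  have he' : (e 0 : ℂ) ^ 2 + (e 1 : ℂ) ^ 2 + (e 2 : ℂ) ^ 2 = 1 := by exact_mod_cast he
  simp only [Fin.sum_univ_three, der2, div2, delta, if_pos]
  linear_combination (2 * μ₀ * inv y ε x ^ 3) * he' +
    (-15 * A₀ * along y e x ^ 2) * sum_rel_sq y ε hε h 5 +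
    (6 * μ₀ * along y e x * inv y ε x ^ 5 - 6 * A₀ * along y e x * inv y ε x ^ 5) * along_eq (y := y) (e := e) x

theorem div_stress1 {x : Space} (hε : 0 < ε) (h : Far y ε x) (i : Fin 3) :
    ∑ j, pd j (fun z => der1 y ε i j z + der1 y ε j i z) x = 0 := by
  have h1 : DifferentiableAt ℝ (inv y ε) x := (contDiff_inv y ε hε).differentiable (by simp) x
  have h3 : ∀ k, DifferentiableAt ℝ (rel y k) x := fun k => (contDiff_rel y k).differentiable (by simp) x
  simp only [der1]
  simp (disch := fun_prop) only [pd_add, pd_sub, pd_mul, pd_const, pd_rel, pd_inv_pow y ε hε h]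
  fin_cases i <;> simp [Fin.sum_univ_three, delta] <;>
    linear_combination (30 * rel y _ x) * sum_rel_sq y ε hε h 5

theorem div_stress2 {x : Space} (hε : 0 < ε) (h : Far y ε x)
    (he : e 0 ^ 2 + e 1 ^ 2 + e 2 ^ 2 = 1) (μ₀ A₀ : ℂ) (i : Fin 3) :
    ∑ j, pd j (fun z => (A₀ - μ₀) * div2 y e ε μ₀ z * delta i j +
      μ₀ * (der2 y e ε μ₀ A₀ i j z + der2 y e ε μ₀ A₀ j i z)) x = 0 := by
  have he' : (e 0 : ℂ) ^ 2 + (e 1 : ℂ) ^ 2 + (e 2 : ℂ) ^ 2 = 1 := by exact_mod_cast he
  have h1 : DifferentiableAt ℝ (inv y ε) x := (contDiff_inv y ε hε).differentiable (by simp) x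
  have h2 : DifferentiableAt ℝ (along y e) x := (contDiff_along y e).differentiable (by simp) x
  have h3 : ∀ k, DifferentiableAt ℝ (rel y k) x := fun k => (contDiff_rel y k).differentiable (by simp) x
  simp only [div2, der2, sq]
  simp (disch := fun_prop) only [pd_add, pd_sub, pd_mul, pd_const, pd_rel, pd_along,
    pd_inv_pow y ε hε h]
  have hQ := sum_rel_sq y ε hε h 5
  have hQ' := sum_rel_sq y ε hε h 7
  have hs := along_eq (y := y) (e := e) x
  fin_cases i <;> simp [Fin.sum_univ_three, delta]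
  · grind
  · grind
  · grind

end

end Vale.Agent.P136.Full.Boundary
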