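import Mathlib
import Vale.Agent.P136.Full.Boundary.Kernel
import Vale.Agent.P136.Full.Boundary.Geometry

/-!
# P136: size of the singular fields
-/

open MeasureTheory Filter Set Metric
open scoped Topology ContDiff

namespace Vale.Agent.P136.Full.Boundary

noncomputable section

/-- The regularisation used at distance `d`. -/
def eps' (d : ℝ) : ℝ := d ^ 2 / 100

theorem eps'_pos {d : ℝ} (hd : 0 < d) : 0 < eps' d := by unfold eps'; positivity

theorem norm_sq_le_sqd (y x : Space) : ‖x - y‖ ^ 2 ≤ sqd y x := by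
  have h : ‖x - y‖ ≤ Real.sqrt (sqd y x) := (pi_norm_le_iff_of_nonneg (Real.sqrt_nonneg _)).2 fun i => by
    rw [Real.norm_eq_abs, Pi.sub_apply, ← Real.sqrt_sq_eq_abs]
    exact Real.sqrt_le_sqrt (Finset.single_le_sum (f := fun k => (x k - y k) ^ 2)
      (fun k _ => sq_nonneg _) (Finset.mem_univ i))
  calc ‖x - y‖ ^ 2 ≤ Real.sqrt (sqd y x) ^ 2 := pow_le_pow_left₀ (norm_nonneg _) h 2
    _ = sqd y x := Real.sq_sqrt (Finset.sum_nonneg fun i _ => sq_nonneg _)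

theorem far_of_dist {y x : Space} {d : ℝ} (hd : 0 < d) (h : d / 4 ≤ ‖x - y‖) :
    Far y (eps' d) x ∧ 4 * eps' d ≤ sqd y x := by
  have h1 := norm_sq_le_sqd y x
  have h2 : (d / 4) ^ 2 ≤ ‖x - y‖ ^ 2 := pow_le_pow_left₀ (by positivity) h 2
  constructor <;> simp only [Far, eps'] <;> nlinarith

theorem inv_eq {y x : Space} {d : ℝ} (hd : 0 < d) (h : Far y (eps' d) x) :
    inv y (eps' d) x = (((Real.sqrt (sqd y x))⁻¹ : ℝ) : ℂ) := by
  rw [inv, qreg_eq y _ (eps'_pos hd) (le_of_lt h)]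

theorem norm_inv_le {y x : Space} {d : ℝ} (hd : 0 < d) (h : Far y (eps' d) x) :
    ‖inv y (eps' d) x‖ ≤ 9 * (d + ‖x - y‖)⁻¹ := by
  have h1 : ‖x - y‖ ≤ Real.sqrt (sqd y x) := Real.le_sqrt_of_sq_le (norm_sq_le_sqd y x)
  have h2 : d / 8 ≤ Real.sqrt (sqd y x) := Real.le_sqrt_of_sq_le (by
    unfold Far eps' at h; nlinarith)
  rw [inv_eq hd h, Complex.norm_real, norm_inv, Real.norm_eq_abs, abs_of_nonneg (Real.sqrt_nonneg _),
    ← div_eq_mul_inv, le_div_iff₀ (by positivity), inv_mul_le_iff₀ (by linarith)]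
  linarith

theorem norm_rel_mul_inv {y x : Space} {d : ℝ} (hd : 0 < d) (h : Far y (eps' d) x) (k : Fin 3) :
    ‖rel y k x * inv y (eps' d) x‖ ≤ 1 := by
  have h1 : |x k - y k| ≤ Real.sqrt (sqd y x) := by
    rw [← Real.sqrt_sq_eq_abs]
    exact Real.sqrt_le_sqrt (Finset.single_le_sum (f := fun k => (x k - y k) ^ 2)
      (fun k _ => sq_nonneg _) (Finset.mem_univ k))
  rw [inv_eq hd h, rel, norm_mul, Complex.norm_real, Complex.norm_real, norm_inv, Real.norm_eq_abs,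
    Real.norm_eq_abs, abs_of_nonneg (Real.sqrt_nonneg (sqd y x)), ← div_eq_mul_inv]
  exact div_le_one_of_le₀ h1 (Real.sqrt_nonneg _)

theorem norm_along_mul_inv {y e x : Space} {d : ℝ} (hd : 0 < d) (h : Far y (eps' d) x)
    (he : ∀ k, |e k| ≤ 1) : ‖along y e x * inv y (eps' d) x‖ ≤ 3 := by
  rw [along, Finset.sum_mul]
  refine (norm_sum_le _ _).trans ?_
  calc ∑ k, ‖(e k : ℂ) * rel y k x * inv y (eps' d) x‖ ≤ ∑ _k : Fin 3, (1 : ℝ) := by
        refine Finset.sum_le_sum fun k _ => ?_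
        rw [mul_assoc, norm_mul, Complex.norm_real, Real.norm_eq_abs]
        exact mul_le_one₀ (he k) (norm_nonneg _) (norm_rel_mul_inv hd h k)
    _ = 3 := by simp

theorem norm_delta_le (i j : Fin 3) : ‖delta i j‖ ≤ 1 := by
  unfold delta; split <;> simp

theorem norm_inv_cube_le {y x : Space} {d : ℝ} (hd : 0 < d) (h : Far y (eps' d) x) :
    ‖inv y (eps' d) x‖ ^ 3 ≤ 729 * wt y d 3 x := by
  calc ‖inv y (eps' d) x‖ ^ 3 ≤ (9 * (d + ‖x - y‖)⁻¹) ^ 3 :=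
        pow_le_pow_left₀ (norm_nonneg _) (norm_inv_le hd h) 3
    _ = 729 * wt y d 3 x := by rw [wt]; ring

theorem norm_der1_le {y x : Space} {d : ℝ} (hd : 0 < d) (h : Far y (eps' d) x) (i j : Fin 3) :
    ‖der1 y (eps' d) i j x‖ ≤ 4 * 729 * wt y d 3 x := by
  set R := inv y (eps' d) x
  have e1 : der1 y (eps' d) i j x = R ^ 3 * (delta i j - 3 * ((rel y i x * R) * (rel y j x * R))) := by
    simp only [der1, R]; ring
  rw [e1, norm_mul, norm_pow, mul_comm, mul_assoc _ 729]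
  refine mul_le_mul ?_ (norm_inv_cube_le hd h) (by positivity) (by positivity)
  refine (norm_sub_le _ _).trans ?_
  have := mul_le_one₀ (norm_rel_mul_inv hd h i) (norm_nonneg _) (norm_rel_mul_inv hd h j)
  rw [norm_mul, norm_mul (rel y i x * R), Complex.norm_ofNat]
  linarith [norm_delta_le i j]

theorem norm_der2_le {y e x : Space} {d : ℝ} (hd : 0 < d) (h : Far y (eps' d) x)
    (he : ∀ k, |e k| ≤ 1) (μ₀ A₀ : ℂ) (i j : Fin 3) :
    ‖der2 y e (eps' d) μ₀ A₀ i j x‖ ≤ (20 * ‖μ₀‖ + 180 * ‖A₀‖) * 729 * wt y d 3 x := by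
  set R := inv y (eps' d) x with hR
  set u := fun k => rel y k x * R with hu
  set a := along y e x * R with ha
  have e1 : der2 y e (eps' d) μ₀ A₀ i j x = R ^ 3 * (2 * μ₀ * ((e i : ℂ) * (e j : ℂ)) -
      6 * μ₀ * (a * (e i : ℂ) * u j) +
      3 * A₀ * (2 * a * (e j : ℂ) * u i + a ^ 2 * delta i j - 5 * (a ^ 2 * u i * u j))) := by
    simp only [der2, ha, hu, hR]; ring
  have hU : ∀ k, ‖u k‖ ≤ 1 := norm_rel_mul_inv hd h
  have hA : ‖a‖ ≤ 3 := norm_along_mul_inv hd h he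
  have hE : ∀ k, ‖(e k : ℂ)‖ ≤ 1 := fun k => by rw [Complex.norm_real, Real.norm_eq_abs]; exact he k
  have hA2 : ‖a ^ 2‖ ≤ 9 := by
    rw [norm_pow]; exact (pow_le_pow_left₀ (norm_nonneg _) hA 2).trans_eq (by norm_num)
  rw [e1, norm_mul, norm_pow, mul_comm, mul_assoc _ 729]
  refine mul_le_mul ?_ (norm_inv_cube_le hd h) (by positivity) (by positivity)
  have t1 : ‖2 * μ₀ * ((e i : ℂ) * (e j : ℂ))‖ ≤ 2 * ‖μ₀‖ * (1 * 1) := by
    simp only [norm_mul, Complex.norm_ofNat]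
    gcongr <;> exact hE _
  have t2 : ‖6 * μ₀ * (a * (e i : ℂ) * u j)‖ ≤ 6 * ‖μ₀‖ * (3 * 1 * 1) := by
    simp only [norm_mul, Complex.norm_ofNat]
    gcongr <;> first | exact hE _ | exact hU _
  have t3 : ‖2 * a * (e j : ℂ) * u i‖ ≤ 2 * 3 * 1 * 1 := by
    simp only [norm_mul, Complex.norm_ofNat]
    gcongr <;> first | exact hE _ | exact hU _
  have t4 : ‖a ^ 2 * delta i j‖ ≤ 9 * 1 := by
    rw [norm_mul]; gcongr; exact norm_delta_le i j
  have t5 : ‖5 * (a ^ 2 * u i * u j)‖ ≤ 5 * (9 * 1 * 1) := by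
    simp only [norm_mul, Complex.norm_ofNat]
    gcongr <;> exact hU _
  have t6 : ‖3 * A₀ * (2 * a * (e j : ℂ) * u i + a ^ 2 * delta i j - 5 * (a ^ 2 * u i * u j))‖ ≤
      3 * ‖A₀‖ * 60 := by
    rw [norm_mul, norm_mul, Complex.norm_ofNat]
    gcongr
    linarith [norm_sub_le (2 * a * (e j : ℂ) * u i + a ^ 2 * delta i j) (5 * (a ^ 2 * u i * u j)),
      norm_add_le (2 * a * (e j : ℂ) * u i) (a ^ 2 * delta i j)]
  linarith [norm_add_le (2 * μ₀ * ((e i : ℂ) * (e j : ℂ)) - 6 * μ₀ * (a * (e i : ℂ) * u j))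
      (3 * A₀ * (2 * a * (e j : ℂ) * u i + a ^ 2 * delta i j - 5 * (a ^ 2 * u i * u j))),
    norm_sub_le (2 * μ₀ * ((e i : ℂ) * (e j : ℂ))) (6 * μ₀ * (a * (e i : ℂ) * u j))]

/-- The squared symmetric gradient of the first field. -/
def dens1 (y : Space) (ε : ℝ) (x : Space) : ℝ := 6 * (Real.sqrt (qreg y ε x))⁻¹ ^ 6

/-- A quarter of the squared divergence of the second field, for unit shear modulus. -/
def dens2 (y e : Space) (ε : ℝ) (x : Space) : ℝ :=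
  ((Real.sqrt (qreg y ε x))⁻¹ ^ 3 - 3 * edot e (x - y) ^ 2 * (Real.sqrt (qreg y ε x))⁻¹ ^ 5) ^ 2

theorem sum_der1_sq {y x : Space} {ε : ℝ} (hε : 0 < ε) (h : Far y ε x) :
    ∑ i, ∑ j, ((der1 y ε i j x + der1 y ε j i x) / 2) * ((der1 y ε i j x + der1 y ε j i x) / 2) =
      (dens1 y ε x : ℂ) := by
  have hQ := sum_rel_sq y ε hε h 3
  simp only [dens1, der1, delta, Fin.sum_univ_three, Complex.ofReal_mul, Complex.ofReal_pow]
  rw [show ((((Real.sqrt (qreg y ε x))⁻¹ : ℝ)) : ℂ) = inv y ε x from rfl]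
  simp only [if_pos, Fin.reduceEq, if_false]
  push_cast
  linear_combination (9 * (rel y 0 x ^ 2 + rel y 1 x ^ 2 + rel y 2 x ^ 2) * inv y ε x ^ 5 +
    3 * inv y ε x ^ 3) * hQ

theorem div2_sq {y e x : Space} {ε : ℝ} (μ₀ : ℂ) :
    div2 y e ε μ₀ x * div2 y e ε μ₀ x = 4 * μ₀ ^ 2 * (dens2 y e ε x : ℂ) := by
  have ha : along y e x = ((edot e (x - y) : ℝ) : ℂ) := by simp [along, edot, rel]
  simp only [div2, dens2, ha, inv]
  push_cast
  ring

theorem dens1_le {y x : Space} {d : ℝ} (hd : 0 < d) (h : Far y (eps' d) x) :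
    dens1 y (eps' d) x ≤ 6 * 531441 * wt y d 6 x := by
  have h1 : (Real.sqrt (qreg y (eps' d) x))⁻¹ ≤ 9 * (d + ‖x - y‖)⁻¹ := by
    refine le_trans ?_ (norm_inv_le hd h)
    rw [inv, Complex.norm_real]
    exact Real.le_norm_self _
  calc dens1 y (eps' d) x ≤ 6 * (9 * (d + ‖x - y‖)⁻¹) ^ 6 := by
        unfold dens1; gcongr
    _ = 6 * 531441 * wt y d 6 x := by rw [wt]; ring

theorem dens2_le {y e x : Space} {d : ℝ} (hd : 0 < d) (h : Far y (eps' d) x) (he : ∀ k, |e k| ≤ 1) :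
    dens2 y e (eps' d) x ≤ 784 * 531441 * wt y d 6 x := by
  have h1 := norm_along_mul_inv hd h he
  have h2 := norm_inv_le hd h
  set S := (Real.sqrt (qreg y (eps' d) x))⁻¹ with hS
  have hS0 : 0 ≤ S := inv_nonneg.2 (Real.sqrt_nonneg _)
  have ha : along y e x = ((edot e (x - y) : ℝ) : ℂ) := by simp [along, edot, rel]
  rw [ha, inv, ← Complex.ofReal_mul, Complex.norm_real, Real.norm_eq_abs, ← hS] at h1
  rw [inv, Complex.norm_real, Real.norm_eq_abs, ← hS, abs_of_nonneg hS0] at h2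
  have h3 : (edot e (x - y) * S) ^ 2 ≤ 3 ^ 2 := by rw [← sq_abs]; exact pow_le_pow_left₀ (abs_nonneg _) h1 2
  have h4 : (1 - 3 * (edot e (x - y) * S) ^ 2) ^ 2 ≤ 784 := by
    nlinarith [sq_nonneg (edot e (x - y) * S)]
  calc dens2 y e (eps' d) x = (1 - 3 * (edot e (x - y) * S) ^ 2) ^ 2 * S ^ 6 := by
        simp only [dens2, ← hS]; ring
    _ ≤ 784 * (9 * (d + ‖x - y‖)⁻¹) ^ 6 := by gcongr
    _ = 784 * 531441 * wt y d 6 x := by rw [wt]; ring

/-- Both densities are large near the inner normal. -/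
theorem dens_lower {y e z x : Space} {d : ℝ} (hd : 0 < d) (hy : y = z + d • e)
    (he : e 0 ^ 2 + e 1 ^ 2 + e 2 ^ 2 = 1) (hx : x ∈ ball (z - (3 * d) • e) (d / 10)) :
    edot e (x - z) ≤ -(2 * d) ∧ d⁻¹ ^ 6 / 8000 ≤ dens1 y (eps' d) x ∧
      d⁻¹ ^ 6 / 8000 ≤ dens2 y e (eps' d) x := by
  rw [mem_ball, dist_eq_norm] at hx
  set v := x - (z - (3 * d) • e) with hv
  have hv3 := abs_le.1 (abs_edot_le (abs_le_one_of_unit he) v)
  have hs : edot e (x - y) = edot e v - 4 * d := by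
    rw [hy, show x - (z + d • e) = v + (-(4 * d)) • e by rw [hv]; module, edot_add_smul, edot_self he]
    ring
  have hz : edot e (x - z) = edot e v - 3 * d := by
    rw [show x - z = v + (-(3 * d)) • e by rw [hv]; module, edot_add_smul, edot_self he]
    ring
  have hk : ∀ k, |v k| ≤ d / 10 := fun k => ((Real.norm_eq_abs _).symm.le.trans (norm_le_pi_norm v k)).trans hx.le
  have hQ : sqd y x = (v 0 ^ 2 + v 1 ^ 2 + v 2 ^ 2) - 8 * d * edot e v + 16 * d ^ 2 := by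
    simp only [sqd, hy, hv, Fin.sum_univ_three, edot, Pi.add_apply, Pi.sub_apply, Pi.smul_apply, smul_eq_mul]
    linear_combination (16 * d ^ 2) * he
  have hv2 : v 0 ^ 2 + v 1 ^ 2 + v 2 ^ 2 ≤ 3 * (d / 10) ^ 2 := by
    have : ∀ k, v k ^ 2 ≤ (d / 10) ^ 2 := fun k => by
      rw [← sq_abs]; exact pow_le_pow_left₀ (abs_nonneg _) (hk k) 2
    linarith [this 0, this 1, this 2]
  have hQ1 : sqd y x ≤ 19 * d ^ 2 := by rw [hQ]; nlinarith
  have hQ2 : 4 * eps' d ≤ sqd y x := by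
    rw [hQ, eps']; nlinarith [sq_nonneg (v 0), sq_nonneg (v 1), sq_nonneg (v 2)]
  have hQ0 : 0 < sqd y x := lt_of_lt_of_le (by linarith [eps'_pos hd]) hQ2
  have hq : qreg y (eps' d) x = sqd y x :=
    qreg_eq y _ (eps'_pos hd) (by linarith [eps'_pos hd])
  have h6 : (Real.sqrt (sqd y x))⁻¹ ^ 6 = (sqd y x)⁻¹ ^ 3 := by
    rw [show 6 = 2 * 3 by norm_num, pow_mul, inv_pow, Real.sq_sqrt hQ0.le]
  have h7 : d⁻¹ ^ 6 / 8000 ≤ (sqd y x)⁻¹ ^ 3 := by
    have : ((19 * d ^ 2)⁻¹) ^ 3 ≤ (sqd y x)⁻¹ ^ 3 := by gcongr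
    refine le_trans ?_ this
    rw [mul_inv, mul_pow, ← inv_pow, ← pow_mul]
    nlinarith [pow_pos (inv_pos.2 hd) 6]
  refine ⟨by linarith [hz, hv3.2], ?_, ?_⟩
  · unfold dens1
    rw [hq, h6]
    nlinarith [pow_nonneg (inv_nonneg.2 hQ0.le) 3]
  · have e1 : dens2 y e (eps' d) x =
        (1 - 3 * edot e (x - y) ^ 2 * (sqd y x)⁻¹) ^ 2 * (sqd y x)⁻¹ ^ 3 := by
      have h2 : (Real.sqrt (sqd y x))⁻¹ ^ 2 = (sqd y x)⁻¹ := by rw [inv_pow, Real.sq_sqrt hQ0.le]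
      rw [dens2, hq, ← h2]; ring
    rw [e1]
    refine h7.trans (le_mul_of_one_le_left (by positivity) ?_)
    have hs2 : (3.7 * d) ^ 2 ≤ edot e (x - y) ^ 2 := by rw [hs]; nlinarith [hv3.2]
    have : 2 ≤ 3 * edot e (x - y) ^ 2 * (sqd y x)⁻¹ := by
      rw [← div_eq_mul_inv, le_div_iff₀ hQ0]; nlinarith
    nlinarith

end

end Vale.Agent.P136.Full.Boundary
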