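import Mathlib
import Vale.Agent.P136.Green
import Vale.Agent.P136.Modes
import Vale.Agent.P136.Full.Spec
import Vale.Agent.P136.Full.Alg.Conj

/-!
# P136: correcting an approximate solution to a solution
-/

open MeasureTheory Filter Set Metric
open scoped Topology ContDiff

namespace Vale.Agent.P136.Full.Boundary

noncomputable section

/-- The stress of a complex displacement. -/
def stress (M : Moduli) (u : Space → C3) (i j : Fin 3) (x : Space) : ℂ :=
  M.lamC x * divv u x * (if i = j then 1 else 0) +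
    M.muC x * (pd j (fun y => u y i) x + pd i (fun y => u y j) x)

variable {E : Type*} [NormedAddCommGroup E] [NormedSpace ℂ E]

theorem continuous_pd' {f : Space → E} (hf : ContDiff ℝ 1 f) (i : Fin 3) : Continuous (pd i f) :=
  (hf.continuous_fderiv one_ne_zero).clm_apply continuous_const

theorem continuous_divv {u : Space → C3} (hu : ContDiff ℝ 1 u) : Continuous (divv u) :=
  continuous_finsetSum _ fun i _ => continuous_pd' (contDiff_pi.1 hu i) i

theorem continuous_stress (M : Moduli) {u : Space → C3} (hu : ContDiff ℝ 1 u) (i j : Fin 3) :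
    Continuous (stress M u i j) :=
  (((M.contDiff_lamC).continuous.mul (continuous_divv hu)).mul continuous_const).add
    ((M.contDiff_muC).continuous.mul ((continuous_pd' (contDiff_pi.1 hu i) j).add
      (continuous_pd' (contDiff_pi.1 hu j) i)))

theorem contDiff_stress (M : Moduli) {u : Space → C3} (hu : ContDiff ℝ ∞ u) (i j : Fin 3) :
    ContDiff ℝ ∞ (stress M u i j) :=
  ((M.contDiff_lamC.mul (ContDiff.sum fun k _ => contDiff_pd (contDiff_pi.1 hu k) k)).mul
    contDiff_const).add (M.contDiff_muC.mul ((contDiff_pd (contDiff_pi.1 hu i) j).add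
      (contDiff_pd (contDiff_pi.1 hu j) i)))

theorem cform_eq_stress (M : Moduli) (Ω : Set Space) (u φ : Space → C3) :
    M.cform Ω u φ = ∫ x in Ω, ∑ i, ∑ j, stress M u i j x * pd j (fun y => φ y i) x := by
  refine integral_congr_ae (Eventually.of_forall fun x => ?_)
  simp only [stress, divv, Fin.sum_univ_three, if_pos, Fin.reduceEq, if_false]
  ring

theorem integral_mul_pd {Ω : Set Space} (hΩ : IsOpen Ω) (hb : Bornology.IsBounded Ω) (j : Fin 3)
    {S φ : Space → ℂ} (hS : ContDiff ℝ 1 S) (hφ : ContDiff ℝ 1 φ) (h0 : ∀ x ∈ frontier Ω, φ x = 0) :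
    ∫ x in Ω, S x * pd j φ x = -∫ x in Ω, pd j S x * φ x := by
  have hc1 : Continuous fun x => S x * pd j φ x := hS.continuous.mul (continuous_pd' hφ j)
  have hc2 : Continuous fun x => pd j S x * φ x := (continuous_pd' hS j).mul hφ.continuous
  have h : ∫ x in Ω, (pd j S x * φ x + S x * pd j φ x) = 0 := by
    refine integral_pd_eq_zero (F := fun x => S x * φ x) hΩ hb j (hc2.add hc1) (fun y t => ?_)
      fun x hx => by simp [h0 x hx]
    have hd : DifferentiableAt ℝ (fun x => S x * φ x) (j.insertNth t y) :=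
      (hS.mul hφ).differentiable one_ne_zero _
    have h := hd.hasFDerivAt.comp_hasDerivAt t (hasDerivAt_insertNth j y t)
    rw [← pd_mul j (hS.differentiable one_ne_zero _) (hφ.differentiable one_ne_zero _)]
    exact h
  rw [integral_add (integrableOn_of_continuous hb hc2) (integrableOn_of_continuous hb hc1)] at h
  linear_combination h

theorem contDiff_conjDisp (M : Moduli) (θ : C3) (τ : ℝ) {W : Space → Amp} (hW : ContDiff ℝ ∞ W) :
    ContDiff ℝ ∞ fun x => expo θ τ x • M.conjDisp θ τ W x := by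
  have h1 := contDiff_expo θ τ
  have h2 := M.contDiff_nC
  have h3 := M.contDiff_mC
  have h4 : ContDiff ℝ ∞ (grad fun y => (W y).2) := contDiff_pi.2 fun i => contDiff_pd hW.snd i
  have h5 : ContDiff ℝ ∞ (grad M.mC) := contDiff_pi.2 fun i => contDiff_pd h3 i
  unfold Moduli.conjDisp Moduli.disp
  fun_prop

theorem sum_sq_le_six {a b c d e f : ℝ} :
    (a + b + c + d + e + f) ^ 2 ≤ 6 * (a ^ 2 + b ^ 2 + c ^ 2 + d ^ 2 + e ^ 2 + f ^ 2) := by
  nlinarith [sq_nonneg (a - b), sq_nonneg (a - c), sq_nonneg (a - d), sq_nonneg (a - e),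
    sq_nonneg (a - f), sq_nonneg (b - c), sq_nonneg (b - d), sq_nonneg (b - e), sq_nonneg (b - f),
    sq_nonneg (c - d), sq_nonneg (c - e), sq_nonneg (c - f), sq_nonneg (d - e), sq_nonneg (d - f),
    sq_nonneg (e - f)]

theorem gradSqr_conjDisp_le (M : Moduli) (θ : C3) (τ R : ℝ) :
    ∃ C : ℝ, 0 ≤ C ∧ ∀ W : Space → Amp, ContDiff ℝ ∞ W → ∀ x ∈ closedBall (0 : Space) R,
      gradSqr (fun y => expo θ τ y • M.conjDisp θ τ W y) x ≤ C * sobSqr W x := by
  set a := fun x => expo θ τ x * M.nC x with ha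
  set b := fun x => expo θ τ x * M.mC x with hb
  set c := fun (i : Fin 3) x => expo θ τ x * ((τ : ℂ) * M.mC x * θ i - pd i M.mC x) with hc
  have hA : ContDiff ℝ ∞ a := (contDiff_expo θ τ).mul M.contDiff_nC
  have hB : ContDiff ℝ ∞ b := (contDiff_expo θ τ).mul M.contDiff_mC
  have hC : ∀ i, ContDiff ℝ ∞ (c i) := fun i => (contDiff_expo θ τ).mul
    (((contDiff_const.mul M.contDiff_mC).mul contDiff_const).sub (contDiff_pd M.contDiff_mC i))
  set S := fun x => ∑ i, ∑ j, (‖a x‖ + ‖pd j a x‖ + ‖b x‖ + ‖pd j b x‖ + ‖c i x‖ + ‖pd j (c i) x‖) with hS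
  have hSc : Continuous S := continuous_finsetSum _ fun i _ => continuous_finsetSum _ fun j _ =>
    ((((hA.continuous.norm.add (contDiff_pd hA j).continuous.norm).add hB.continuous.norm).add
      (contDiff_pd hB j).continuous.norm).add (hC i).continuous.norm).add
        (contDiff_pd (hC i) j).continuous.norm
  obtain ⟨K, hK⟩ := (isCompact_closedBall (0 : Space) R).bddAbove_image hSc.continuousOn
  refine ⟨9 * (12 * max 0 K ^ 2), by positivity, fun W hW x hx => ?_⟩
  have hKx : S x ≤ max 0 K := (hK (mem_image_of_mem S hx)).trans (le_max_right _ _)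
  unfold gradSqr
  calc _ ≤ ∑ _i : Fin 3, ∑ _j : Fin 3, 12 * max 0 K ^ 2 * sobSqr W x := ?_
    _ = 9 * (12 * max 0 K ^ 2) * sobSqr W x := by simp; ring
  refine Finset.sum_le_sum fun i _ => Finset.sum_le_sum fun j _ => ?_
  have hw : ContDiff ℝ ∞ fun y => (W y).1 i := contDiff_pi.1 hW.fst i
  have hg : ContDiff ℝ ∞ fun y => (W y).2 := hW.snd
  have e : (fun y => (expo θ τ y • M.conjDisp θ τ W y) i) =
      fun y => a y * (W y).1 i + b y * pd i (fun y => (W y).2) y + c i y * (W y).2 := by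
    funext y
    simp only [ha, hb, hc, Moduli.conjDisp, Moduli.disp, grad, Pi.smul_apply, Pi.add_apply,
      Pi.sub_apply, smul_eq_mul]
    ring
  have d0 : ∀ {f : Space → ℂ}, ContDiff ℝ ∞ f → DifferentiableAt ℝ f x := fun h =>
    h.differentiable (by simp) x
  have hpg := contDiff_pd hg i
  rw [e, pd_add j ((d0 hA).fun_mul (d0 hw) |>.fun_add ((d0 hB).fun_mul (d0 hpg)))
      ((d0 (hC i)).fun_mul (d0 hg)),
    pd_add j ((d0 hA).fun_mul (d0 hw)) ((d0 hB).fun_mul (d0 hpg)),
    pd_mul j (d0 hA) (d0 hw), pd_mul j (d0 hB) (d0 hpg), pd_mul j (d0 (hC i)) (d0 hg)]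
  have hSij : ‖a x‖ + ‖pd j a x‖ + ‖b x‖ + ‖pd j b x‖ + ‖c i x‖ + ‖pd j (c i) x‖ ≤ max 0 K := by
    refine le_trans ?_ hKx
    refine le_trans ?_ (Finset.single_le_sum (fun k _ => Finset.sum_nonneg fun l _ => by positivity)
      (Finset.mem_univ i))
    exact Finset.single_le_sum (f := fun l => ‖a x‖ + ‖pd l a x‖ + ‖b x‖ + ‖pd l b x‖ + ‖c i x‖ +
      ‖pd l (c i) x‖) (fun l _ => by positivity) (Finset.mem_univ j)
  have := norm_nonneg (a x); have := norm_nonneg (pd j a x); have := norm_nonneg (b x)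
  have := norm_nonneg (pd j b x); have := norm_nonneg (c i x); have := norm_nonneg (pd j (c i) x)
  have hb' : ∀ {p q : ℂ}, ‖p‖ ≤ max 0 K → ‖p * q‖ ≤ max 0 K * ‖q‖ := fun {p q} hp => by
    rw [norm_mul]; gcongr
  have t1 := hb' (q := (W x).1 i) (show ‖pd j a x‖ ≤ max 0 K by linarith)
  have t2 := hb' (q := pd j (fun y => (W y).1 i) x) (show ‖a x‖ ≤ max 0 K by linarith)
  have t3 := hb' (q := pd i (fun y => (W y).2) x) (show ‖pd j b x‖ ≤ max 0 K by linarith)
  have t4 := hb' (q := pd j (pd i fun y => (W y).2) x) (show ‖b x‖ ≤ max 0 K by linarith)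
  have t5 := hb' (q := (W x).2) (show ‖pd j (c i) x‖ ≤ max 0 K by linarith)
  have t6 := hb' (q := pd j (fun y => (W y).2) x) (show ‖c i x‖ ≤ max 0 K by linarith)
  have hsum := (norm_add₃_le (a := pd j a x * (W x).1 i + a x * pd j (fun y => (W y).1 i) x)
    (b := pd j b x * pd i (fun y => (W y).2) x + b x * pd j (pd i fun y => (W y).2) x)
    (c := pd j (c i) x * (W x).2 + c i x * pd j (fun y => (W y).2) x)).trans
      (add_le_add_three (norm_add_le _ _) (norm_add_le _ _) (norm_add_le _ _))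
  refine (pow_le_pow_left₀ (norm_nonneg _) (hsum.trans (add_le_add_three (add_le_add t1 t2)
    (add_le_add t3 t4) (add_le_add t5 t6))) 2).trans ?_
  have q1 : ‖(W x).1 i‖ ^ 2 + ‖(W x).2‖ ^ 2 ≤ ampSqr (W x) := by
    simp only [ampSqr]
    gcongr
    exact Finset.single_le_sum (f := fun k => ‖(W x).1 k‖ ^ 2) (fun k _ => sq_nonneg _) (Finset.mem_univ i)
  have dW : DifferentiableAt ℝ W x := hW.differentiable (by simp) x
  have ep : ∀ k, pd k (fun y => (W y).2) x = (pd k W x).2 := fun k => pd_snd k dW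
  have ew : pd j (fun y => (W y).1 i) x = (pd j W x).1 i := by rw [pd_apply j i dW.fst, pd_fst j dW]
  have q2 : ‖pd j (fun y => (W y).1 i) x‖ ^ 2 + ‖pd j (fun y => (W y).2) x‖ ^ 2 +
      ‖pd i (fun y => (W y).2) x‖ ^ 2 ≤ 2 * ∑ k, ampSqr (pd k W x) := by
    rw [ep, ep, ew]
    have h1 : ∀ k, ‖(pd k W x).1 i‖ ^ 2 + ‖(pd k W x).2‖ ^ 2 ≤ ampSqr (pd k W x) := fun k => by
      simp only [ampSqr]
      gcongr
      exact Finset.single_le_sum (f := fun l => ‖(pd k W x).1 l‖ ^ 2) (fun l _ => sq_nonneg _) (Finset.mem_univ i)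
    have h2 : ∀ k, ampSqr (pd k W x) ≤ ∑ l, ampSqr (pd l W x) := fun k =>
      Finset.single_le_sum (f := fun l => ampSqr (pd l W x)) (fun l _ => by unfold ampSqr; positivity)
        (Finset.mem_univ k)
    nlinarith [h1 i, h1 j, h2 i, h2 j, sq_nonneg ‖(pd i W x).1 i‖]
  have q3 : ‖pd j (pd i fun y => (W y).2) x‖ ^ 2 ≤
      ∑ k, ∑ l, ‖hess (fun y => (W y).2) x k l‖ ^ 2 :=
    le_trans (Finset.single_le_sum (f := fun l => ‖hess (fun y => (W y).2) x i l‖ ^ 2)
      (fun l _ => sq_nonneg _) (Finset.mem_univ j))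
      (Finset.single_le_sum (f := fun k => ∑ l, ‖hess (fun y => (W y).2) x k l‖ ^ 2)
        (fun k _ => by positivity) (Finset.mem_univ i))
  rw [← mul_add, ← mul_add, ← mul_add, ← mul_add, ← mul_add, mul_pow]
  refine (mul_le_mul_of_nonneg_left ?_ (sq_nonneg _)).trans_eq (by ring :
    max 0 K ^ 2 * (12 * sobSqr W x) = 12 * max 0 K ^ 2 * sobSqr W x)
  refine le_trans (le_of_eq (by ring)) (le_trans (sum_sq_le_six (a := ‖(W x).1 i‖)
    (b := ‖pd j (fun y => (W y).1 i) x‖) (c := ‖pd i (fun y => (W y).2) x‖)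
    (d := ‖pd j (pd i fun y => (W y).2) x‖) (e := ‖(W x).2‖) (f := ‖pd j (fun y => (W y).2) x‖)) ?_)
  unfold sobSqr
  have : 0 ≤ ampSqr (W x) := by unfold ampSqr; positivity
  have : 0 ≤ ∑ k, ampSqr (pd k W x) := Finset.sum_nonneg fun k _ => by unfold ampSqr; positivity
  nlinarith

end

end Vale.Agent.P136.Full.Boundary
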