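import Mathlib
import Vale.Agent.P136.Full.Boundary.Correction

/-!
# P136: exact solutions near a given field
-/

open MeasureTheory Filter Set Metric
open scoped Topology ContDiff

namespace Vale.Agent.P136.Full.Boundary

noncomputable section

theorem ampSqr_nonneg (Y : Amp) : 0 ≤ ampSqr Y := by unfold ampSqr; positivity

theorem gradSqr_nonneg (u : Space → C3) (x : Space) : 0 ≤ gradSqr u x := by unfold gradSqr; positivity

theorem sobSqr_nonneg (U : Space → Amp) (x : Space) : 0 ≤ sobSqr U x :=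
  add_nonneg (add_nonneg (ampSqr_nonneg _) (Finset.sum_nonneg fun i _ => ampSqr_nonneg _))
    (by positivity)

theorem continuous_ampSqr {f : Space → Amp} (hf : Continuous f) : Continuous fun x => ampSqr (f x) := by
  unfold ampSqr; fun_prop

theorem continuous_sobSqr {U : Space → Amp} (hU : ContDiff ℝ ∞ U) : Continuous (sobSqr U) := by
  refine ((continuous_ampSqr hU.continuous).add ?_).add ?_
  · exact continuous_finsetSum _ fun i _ => continuous_ampSqr (contDiff_pd hU i).continuous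
  · refine continuous_finsetSum _ fun i _ => continuous_finsetSum _ fun j _ => ?_
    exact ((contDiff_pd (contDiff_pd hU.snd i) j).continuous.norm.pow 2)

theorem continuous_gradSqr {u : Space → C3} (hu : ContDiff ℝ 1 u) : Continuous (gradSqr u) :=
  continuous_finsetSum _ fun i _ => continuous_finsetSum _ fun j _ =>
    ((continuous_pd' (contDiff_pi.1 hu i) j).norm.pow 2)

theorem contDiff_conjReduced (M : Moduli) (θ : C3) (τ : ℝ) {U : Space → Amp} (hU : ContDiff ℝ ∞ U) :
    ContDiff ℝ ∞ (M.conjReduced θ τ U) := by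
  have hw : ContDiff ℝ ∞ fun y => (U y).1 := hU.fst
  have hg : ContDiff ℝ ∞ fun y => (U y).2 := hU.snd
  have k1 := M.contDiff_sqC
  have k2 := M.contDiff_mC
  have k3 := M.contDiff_nC
  have k4 := M.contDiff_muC
  have k5 := M.contDiff_AC
  have k6 := M.contDiff_cC
  have i1 : ContDiff ℝ ∞ fun x => (M.sqC x)⁻¹ := k1.inv M.sqC_ne
  have i2 : ContDiff ℝ ∞ fun x => (M.AC x + M.muC x)⁻¹ := (k5.add k4).inv M.AC_add_muC_ne
  have g1 : ∀ {f : Space → ℂ}, ContDiff ℝ ∞ f → ContDiff ℝ ∞ (grad f) := fun hf =>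
    contDiff_pi.2 fun i => contDiff_pd hf i
  have g2 : ∀ {f : Space → ℂ} {v : Space → C3}, ContDiff ℝ ∞ f → ContDiff ℝ ∞ v →
      ContDiff ℝ ∞ fun x => hessVec f x (v x) := fun hf hv => contDiff_pi.2 fun i =>
    ContDiff.sum fun j _ => (contDiff_pd (contDiff_pd hf i) j).mul (contDiff_pi.1 hv j)
  have g3 : ∀ {u v : Space → C3}, ContDiff ℝ ∞ u → ContDiff ℝ ∞ v →
      ContDiff ℝ ∞ fun x => bdot (u x) (v x) := fun hu hv =>
    ContDiff.sum fun i _ => (contDiff_pi.1 hu i).mul (contDiff_pi.1 hv i)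
  have l1 : ∀ {E : Type} [NormedAddCommGroup E] [NormedSpace ℂ E] {f : Space → E},
      ContDiff ℝ ∞ f → ContDiff ℝ ∞ (lap f) := fun hf =>
    ContDiff.sum fun i _ => contDiff_pd (contDiff_pd hf i) i
  have q1 := l1 hw
  have q2 := l1 hg
  have q3 := g2 k2 (g1 hg)
  have q4 : ContDiff ℝ ∞ (divv fun y => (U y).1) :=
    ContDiff.sum fun i _ => contDiff_pd (contDiff_pi.1 hw i) i
  have q5 := g1 k4
  have q6 := l1 k3
  have q7 := g3 (g1 k3) q5
  have q8 := g2 k3 hw
  have q9 := g3 (g1 k3) hw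
  have q10 := g1 (l1 k2)
  have q11 := g2 k2 q5
  have q12 := l1 k2
  have q13 := g2 k2 (contDiff_const (c := θ))
  have q14 := g3 (contDiff_const (c := θ)) hw
  have q15 := contDiff_Dth hw θ
  have q16 := contDiff_Dth hg θ
  unfold Moduli.conjReduced Moduli.reduced Moduli.transport
  simp only [div_eq_mul_inv]
  fun_prop

/-- The phase direction of the corrections. -/
def th0 : C3 := ![1, Complex.I, 0]

theorem th0_null : IsNull th0 := by
  refine ⟨by simp [th0, bdot, Fin.sum_univ_three], fun h => ?_⟩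
  have := congrFun h 0
  simp [th0] at this

theorem pd_stress_sub (M : Moduli) {Φ : Space → C3} (hΦ : ContDiff ℝ ∞ Φ) {H : Fin 3 → Space → C3}
    (hH : ∀ j, ContDiff ℝ ∞ (H j)) {x : Space} {i : Fin 3}
    (h : ∑ j, pd j (fun z => stress M Φ i j z - H j z i) x = 0) :
    ∑ j, pd j (stress M Φ i j) x = ∑ j, pd j (fun z => H j z i) x := by
  rw [← sub_eq_zero, ← Finset.sum_sub_distrib, ← h]
  exact Finset.sum_congr rfl fun j _ => (pd_sub j ((contDiff_stress M hΦ i j).differentiable (by simp) x)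
    ((contDiff_pi.1 (hH j) i).differentiable (by simp) x)).symm

theorem cform_add_left (M : Moduli) {Ω : Set Space} (hb : Bornology.IsBounded Ω)
    {u v φ : Space → C3} (hu : ContDiff ℝ 1 u) (hv : ContDiff ℝ 1 v) (hφ : ContDiff ℝ 1 φ) :
    M.cform Ω (u + v) φ = M.cform Ω u φ + M.cform Ω v φ := by
  have hc : ∀ {w : Space → C3}, ContDiff ℝ 1 w → Continuous fun x =>
      ∑ i, ∑ j, stress M w i j x * pd j (fun y => φ y i) x := fun hw =>
    continuous_finsetSum _ fun i _ => continuous_finsetSum _ fun j _ =>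
      (continuous_stress M hw i j).mul (continuous_pd' (contDiff_pi.1 hφ i) j)
  rw [cform_eq_stress, cform_eq_stress, cform_eq_stress,
    ← integral_add (integrableOn_of_continuous hb (hc hu)) (integrableOn_of_continuous hb (hc hv))]
  refine integral_congr_ae (Eventually.of_forall fun x => ?_)
  simp only
  have e : ∀ k l, pd l (fun y => (u + v) y k) x = pd l (fun y => u y k) x + pd l (fun y => v y k) x :=
    fun k l => pd_add l ((contDiff_pi.1 hu k).differentiable one_ne_zero x)
      ((contDiff_pi.1 hv k).differentiable one_ne_zero x)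
  simp only [stress, divv, e, Fin.sum_univ_three, if_pos, Fin.reduceEq, if_false]
  ring

theorem cform_eq_neg_div (M : Moduli) {Ω : Set Space} (hΩ : IsOpen Ω) (hb : Bornology.IsBounded Ω)
    {Φ φ : Space → C3} (hΦ : ContDiff ℝ ∞ Φ) (hφ : ContDiff ℝ 1 φ) (h0 : ∀ x ∈ frontier Ω, φ x = 0)
    {H : Fin 3 → Space → C3} (hH : ∀ j, ContDiff ℝ ∞ (H j))
    (h : ∀ x ∈ Ω, ∀ i, ∑ j, pd j (fun z => stress M Φ i j z - H j z i) x = 0) :
    M.cform Ω Φ φ = -∫ x in Ω, ∑ i, (∑ j, pd j (fun z => H j z i) x) * φ x i := by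
  have hS : ∀ i j, ContDiff ℝ 1 (stress M Φ i j) := fun i j => (contDiff_stress M hΦ i j).of_le (by simp)
  have hφi : ∀ i, ContDiff ℝ 1 fun y => φ y i := fun i => contDiff_pi.1 hφ i
  have i1 : ∀ i j, IntegrableOn (fun x => stress M Φ i j x * pd j (fun y => φ y i) x) Ω := fun i j =>
    integrableOn_of_continuous hb ((hS i j).continuous.mul (continuous_pd' (hφi i) j))
  have i2 : ∀ i j, IntegrableOn (fun x => pd j (stress M Φ i j) x * φ x i) Ω := fun i j =>
    integrableOn_of_continuous hb ((continuous_pd' (hS i j) j).mul (hφi i).continuous)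
  rw [cform_eq_stress, integral_finsetSum _ fun i _ => integrable_finsetSum _ fun j _ => i1 i j]
  have e1 : ∀ i, ∫ x in Ω, ∑ j, stress M Φ i j x * pd j (fun y => φ y i) x =
      -∫ x in Ω, ∑ j, pd j (stress M Φ i j) x * φ x i := by
    intro i
    rw [integral_finsetSum _ fun j _ => i1 i j, integral_finsetSum _ fun j _ => i2 i j,
      ← Finset.sum_neg_distrib]
    exact Finset.sum_congr rfl fun j _ =>
      integral_mul_pd hΩ hb j (hS i j) (hφi i) fun x hx => by simp [h0 x hx]
  rw [Finset.sum_congr rfl fun i _ => e1 i, Finset.sum_neg_distrib,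
    ← integral_finsetSum _ fun i _ => integrable_finsetSum _ fun j _ => i2 i j]
  congr 1
  refine setIntegral_congr_fun hΩ.measurableSet fun x hx => Finset.sum_congr rfl fun i _ => ?_
  rw [← Finset.sum_mul, pd_stress_sub M hΦ hH (h x hx i)]

theorem exists_correction (hSol : SolveStmt) (hDisp : DispSolStmt) (M : Moduli) {Ω : Set Space}
    (hΩ : IsOpen Ω) (hb : Bornology.IsBounded Ω) {R : ℝ} (hR : closure Ω ⊆ ball (0 : Space) R) :
    ∃ C : ℝ, 0 ≤ C ∧ ∀ Φ : Space → C3, ContDiff ℝ ∞ Φ → ∀ H : Fin 3 → Space → C3,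
      (∀ j, ContDiff ℝ ∞ (H j)) → (∀ j x, x ∉ closedBall (0 : Space) R → H j x = 0) →
      (∀ x ∈ Ω, ∀ i, ∑ j, pd j (fun z => stress M Φ i j z - H j z i) x = 0) →
      ∃ U : ℕ → Space → C3, ApproxSol Ω M (fun k => Φ + U k) ∧ (∀ k, ContDiff ℝ 1 (U k)) ∧
        ∀ k, ∫ x in Ω, gradSqr (U k) x ≤ C * ∫ x, ∑ j, ∑ i, ‖H j x i‖ ^ 2 := by
  obtain ⟨C₀, τ₀, p, hC₀, hτ₀, hS⟩ := hSol M th0 th0_null R
  obtain ⟨C₁, hC₁, hU⟩ := gradSqr_conjDisp_le M th0 τ₀ R
  set a := fun x => (expo th0 τ₀ x * M.sqC x)⁻¹ with ha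
  have hane : ∀ x, expo th0 τ₀ x * M.sqC x ≠ 0 := fun x =>
    mul_ne_zero (expo_ne_zero _ _ _) (M.sqC_ne x)
  have hac : ContDiff ℝ ∞ a := ((contDiff_expo th0 τ₀).mul M.contDiff_sqC).inv hane
  set S := fun x => ‖a x‖ + ∑ j, ‖pd j a x‖ with hSdef
  obtain ⟨K, hK⟩ := (isCompact_closedBall (0 : Space) R).bddAbove_image
    (hac.continuous.norm.add (continuous_finsetSum _ fun j _ =>
      (contDiff_pd hac j).continuous.norm)).continuousOn
  have hK' : ∀ x ∈ closedBall (0 : Space) R, ‖a x‖ ≤ max 0 K ∧ ∀ j, ‖pd j a x‖ ≤ max 0 K := by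
    intro x hx
    have h1 : S x ≤ max 0 K := (hK (mem_image_of_mem _ hx)).trans (le_max_right _ _)
    have h2 := norm_nonneg (a x)
    have h3 : 0 ≤ ∑ j, ‖pd j a x‖ := by positivity
    refine ⟨by linarith, fun j => ?_⟩
    have := Finset.single_le_sum (f := fun l => ‖pd l a x‖) (fun l _ => norm_nonneg _) (Finset.mem_univ j)
    linarith
  refine ⟨C₁ * (C₀ * τ₀ ^ p * (4 * max 0 K ^ 2)), by positivity, fun Φ hΦ H hH hH0 hdiv => ?_⟩
  set G : Fin 3 → Space → C3 := fun j x => -(a x • H j x) with hG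
  set F : Space → Amp := fun x => (∑ j, pd j a x • H j x, 0) with hF
  have hGs : ∀ j, ContDiff ℝ ∞ (G j) := fun j => (hac.smul (hH j)).neg
  have hFs : ContDiff ℝ ∞ F :=
    (ContDiff.sum fun j _ => (contDiff_pd hac j).smul (hH j)).prodMk contDiff_const
  have hcpt := isCompact_closedBall (0 : Space) R
  have hGc : ∀ j, HasCompactSupport (G j) := fun j =>
    HasCompactSupport.intro hcpt fun x hx => by simp [hG, hH0 j x hx]
  have hFc : HasCompactSupport F :=
    HasCompactSupport.intro hcpt fun x hx => by simp [hF, hH0 _ x hx]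
  obtain ⟨w, hws, hwb, hwC, hwR⟩ := hS τ₀ le_rfl G F (fun j => ⟨hGs j, hGc j⟩) hFs hFc
  set f : Space → C3 := fun x => (∑ j, pd j (G j) x) + (F x).1 with hf
  have hfc : Continuous f :=
    (continuous_finsetSum _ fun j _ => (contDiff_pd (hGs j) j).continuous).add hFs.continuous.fst
  have hΩR : Ω ⊆ ball (0 : Space) R := subset_closure.trans hR
  have hres : Tendsto (fun k => ∫ x in Ω, ampSqr (M.conjReduced th0 τ₀ (w k) x - (f x, 0))) atTop
      (𝓝 0) := by
    refine squeeze_zero (fun k => setIntegral_nonneg hΩ.measurableSet fun x _ => ampSqr_nonneg _)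
      (fun k => ?_) hwR
    refine setIntegral_mono_set (integrableOn_of_continuous isBounded_ball ?_)
      (Eventually.of_forall fun x => ampSqr_nonneg _) (LE.le.eventuallyLE hΩR)
    exact continuous_ampSqr ((contDiff_conjReduced M th0 τ₀ (hws k)).continuous.sub
      ((continuous_finsetSum _ fun j _ => (contDiff_pd (hGs j) j).continuous).add
        hFs.continuous.fst |>.prodMk hFs.continuous.snd))
  obtain ⟨hUs, hUC, hUo⟩ := hDisp Ω M th0 τ₀ R w f hΩ th0_null hR hws hfc hwC hres
  set U : ℕ → Space → C3 := fun k x => expo th0 τ₀ x • M.conjDisp th0 τ₀ (w k) x with hUdef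
  have hΦ1 : ContDiff ℝ 1 Φ := hΦ.of_le (by simp)
  refine ⟨U, ⟨fun k => hΦ1.add (hUs k), ?_, fun φ hφ h0 => ?_⟩, hUs, fun k => ?_⟩
  · refine hUC.congr fun q => ?_
    simp only [hUdef, add_sub_add_left_eq_sub]
  · have e1 : ∀ k, M.cform Ω (Φ + U k) φ = M.cform Ω Φ φ + M.cform Ω (U k) φ := fun k =>
      cform_add_left M hb hΦ1 (hUs k) hφ
    simp only [e1]
    have e2 : M.cform Ω Φ φ = ∫ x in Ω, expo th0 τ₀ x * M.sqC x * bdot (f x) (φ x) := by
      rw [cform_eq_neg_div M hΩ hb hΦ hφ h0 hH hdiv, ← integral_neg]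
      refine integral_congr_ae (Eventually.of_forall fun x => ?_)
      have e3 : f x = -(a x • ∑ j, pd j (H j) x) := by
        simp only [hf, hF, hG, pd_neg, pd_smul _ (hac.differentiable (by simp) x)
          ((hH _).differentiable (by simp) x), Finset.sum_neg_distrib, Finset.sum_add_distrib,
          Finset.smul_sum]
        abel
      have e4 : ∀ i, (∑ j, pd j (H j) x) i = ∑ j, pd j (fun z => H j z i) x := fun i => by
        rw [Finset.sum_apply]
        exact Finset.sum_congr rfl fun j _ => (pd_apply j i ((hH j).differentiable (by simp) x)).symm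
      simp only [e3, bdot, Pi.neg_apply, Pi.smul_apply, smul_eq_mul, e4, ha]
      rw [Finset.mul_sum, ← Finset.sum_neg_distrib]
      refine Finset.sum_congr rfl fun i _ => ?_
      have h1 := expo_ne_zero th0 τ₀ x
      have h2 := M.sqC_ne x
      field_simp
    have := (hUo φ hφ h0).const_add (M.cform Ω Φ φ)
    rwa [e2, add_neg_cancel, ← e2] at this
  · have h1 : ∫ x in Ω, gradSqr (U k) x ≤ C₁ * ∫ x in ball (0 : Space) R, sobSqr (w k) x := by
      rw [← integral_const_mul]
      have hc := continuous_const.mul (continuous_sobSqr (hws k)) (f := fun _ : Space => C₁)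
      calc ∫ x in Ω, gradSqr (U k) x ≤ ∫ x in Ω, C₁ * sobSqr (w k) x :=
            setIntegral_mono_on (integrableOn_of_continuous hb (continuous_gradSqr (hUs k)))
              (integrableOn_of_continuous hb hc) hΩ.measurableSet fun x hx =>
                hU (w k) (hws k) x (ball_subset_closedBall (hΩR hx))
        _ ≤ _ := setIntegral_mono_set (integrableOn_of_continuous isBounded_ball hc)
            (Eventually.of_forall fun x => mul_nonneg hC₁ (sobSqr_nonneg _ _))
            (LE.le.eventuallyLE hΩR)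
    refine h1.trans ?_
    rw [mul_assoc C₁, mul_assoc (C₀ * τ₀ ^ p)]
    refine mul_le_mul_of_nonneg_left ((hwb k).trans (mul_le_mul_of_nonneg_left ?_ (by positivity))) hC₁
    have hHc : ∀ {g : Space → ℝ}, Continuous g → (∀ x, x ∉ closedBall (0 : Space) R → g x = 0) →
        Integrable g := fun hg h => hg.integrable_of_hasCompactSupport (HasCompactSupport.intro hcpt h)
    have iH : Integrable fun x => ∑ j, ∑ i, ‖H j x i‖ ^ 2 := hHc
      (continuous_finsetSum _ fun j _ => continuous_finsetSum _ fun i _ =>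
        ((contDiff_pi.1 (hH j) i).continuous.norm.pow 2)) fun x hx => by simp [hH0 _ x hx]
    have iF : Integrable fun x => ampSqr (F x) :=
      hHc (continuous_ampSqr hFs.continuous) fun x hx => by simp [hF, hH0 _ x hx, ampSqr]
    have iG : ∀ j, Integrable fun x => ∑ i, ‖G j x i‖ ^ 2 := fun j =>
      hHc (continuous_finsetSum _ fun i _ => ((contDiff_pi.1 (hGs j) i).continuous.norm.pow 2))
        fun x hx => by simp [hG, hH0 j x hx]
    rw [← integral_finsetSum _ fun j _ => iG j, ← integral_add iF (integrable_finsetSum _ fun j _ => iG j),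
      ← integral_const_mul]
    refine integral_mono (iF.add (integrable_finsetSum _ fun j _ => iG j)) (iH.const_mul _) fun x => ?_
    by_cases hx : x ∈ closedBall (0 : Space) R
    · obtain ⟨ka, kb⟩ := hK' x hx
      simp only [hF, hG, ampSqr, norm_zero, ne_eq, OfNat.ofNat_ne_zero, not_false_eq_true, zero_pow,
        add_zero, Pi.neg_apply, Pi.smul_apply, smul_eq_mul, norm_neg, norm_mul, mul_pow,
        Finset.sum_apply]
      have hs : ∀ i, ‖∑ j, pd j a x * H j x i‖ ^ 2 ≤ 3 * max 0 K ^ 2 * ∑ j, ‖H j x i‖ ^ 2 := by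
        intro i
        have h : ‖∑ j, pd j a x * H j x i‖ ≤ max 0 K * ∑ j, ‖H j x i‖ := by
          rw [Finset.mul_sum]
          refine (norm_sum_le _ _).trans (Finset.sum_le_sum fun j _ => ?_)
          rw [norm_mul]
          exact mul_le_mul_of_nonneg_right (kb j) (norm_nonneg _)
        refine (pow_le_pow_left₀ (norm_nonneg _) h 2).trans ?_
        rw [mul_pow, mul_comm (3 : ℝ), mul_assoc]
        refine mul_le_mul_of_nonneg_left ?_ (sq_nonneg _)
        simp only [Fin.sum_univ_three]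
        nlinarith [sq_nonneg (‖H 0 x i‖ - ‖H 1 x i‖), sq_nonneg (‖H 1 x i‖ - ‖H 2 x i‖),
          sq_nonneg (‖H 2 x i‖ - ‖H 0 x i‖)]
      have t1 : ∑ i, ‖∑ j, pd j a x * H j x i‖ ^ 2 ≤ 3 * max 0 K ^ 2 * ∑ j, ∑ i, ‖H j x i‖ ^ 2 := by
        rw [Finset.sum_comm, Finset.mul_sum]
        exact Finset.sum_le_sum fun i _ => hs i
      have t2 : ∑ j, ∑ i, ‖a x‖ ^ 2 * ‖H j x i‖ ^ 2 ≤ max 0 K ^ 2 * ∑ j, ∑ i, ‖H j x i‖ ^ 2 := by
        simp only [← Finset.mul_sum]
        gcongr
      linarith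
    · simp [hF, hG, ampSqr, hH0 _ x hx]

end

end Vale.Agent.P136.Full.Boundary
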