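import Mathlib
import Vale.Agent.P136.Full.Boundary.Bounds
import Vale.Agent.P136.Full.Boundary.Solution

/-!
# P136: the identity tested on singular solutions
-/

open MeasureTheory Filter Set Metric
open scoped Topology ContDiff

namespace Vale.Agent.P136.Full.Boundary

noncomputable section

/-- The stress of a field for constant moduli `λ₀ = A₀ - μ₀`, `μ₀`. -/
def stress0 (μ₀ A₀ : ℂ) (Φ : Space → C3) (i j : Fin 3) (x : Space) : ℂ :=
  (A₀ - μ₀) * divv Φ x * (if i = j then 1 else 0) +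
    μ₀ * (pd j (fun y => Φ y i) x + pd i (fun y => Φ y j) x)

/-- A field singular at `y`, frozen at `z`. -/
structure Singular (Ω : Set Space) (M : Moduli) (z y : Space) (d B : ℝ) (Φ : Space → C3) : Prop where
  smooth : ContDiff ℝ ∞ Φ
  bound : ∀ x, Far y (eps' d) x → ∀ i j, ‖pd j (fun w => Φ w i) x‖ ≤ B * wt y d 3 x
  free : ∀ x ∈ Ω, ∀ i, ∑ j, pd j (stress0 (M.muC z) (M.AC z) Φ i j) x = 0

/-- The density of the difference of the two energies. -/
def diffDens (M₁ M₂ : Moduli) (u v : Space → C3) (x : Space) : ℂ :=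
  (M₁.lamC x - M₂.lamC x) * (divv u x * divv v x) + 2 * (M₁.muC x - M₂.muC x) * ∑ i, ∑ j,
    ((pd j (fun y => u y i) x + pd i (fun y => u y j) x) / 2) *
      ((pd j (fun y => v y i) x + pd i (fun y => v y j) x) / 2)

/-- The size of the difference of the moduli. -/
def gap (M₁ M₂ : Moduli) (x : Space) : ℝ := |M₁.lam x - M₂.lam x| + |M₁.mu x - M₂.mu x|

theorem norm_diffDens_le (M₁ M₂ : Moduli) {u v : Space → C3} {x : Space} {a b : ℝ} (ha0 : 0 ≤ a)
    (hb0 : 0 ≤ b) (ha : ∀ i j, ‖pd j (fun y => u y i) x‖ ≤ a) (hb : ∀ i j, ‖pd j (fun y => v y i) x‖ ≤ b) :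
    ‖diffDens M₁ M₂ u v x‖ ≤ 20 * gap M₁ M₂ x * (a * b) := by
  have eL : ‖M₁.lamC x - M₂.lamC x‖ = |M₁.lam x - M₂.lam x| := by
    simp only [Moduli.lamC, ← Complex.ofReal_sub, Complex.norm_real, Real.norm_eq_abs]
  have eM : ‖M₁.muC x - M₂.muC x‖ = |M₁.mu x - M₂.mu x| := by
    simp only [Moduli.muC, ← Complex.ofReal_sub, Complex.norm_real, Real.norm_eq_abs]
  have hd : ∀ {w : Space → C3} {c : ℝ}, (∀ i j, ‖pd j (fun y => w y i) x‖ ≤ c) →
      ‖divv w x‖ ≤ 3 * c := fun {w c} h => by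
    refine (norm_sum_le _ _).trans ((Finset.sum_le_sum fun i _ => h i i).trans_eq (by simp))
  have he : ∀ {w : Space → C3} {c : ℝ}, (∀ i j, ‖pd j (fun y => w y i) x‖ ≤ c) → ∀ i j,
      ‖(pd j (fun y => w y i) x + pd i (fun y => w y j) x) / 2‖ ≤ c := fun {w c} h i j => by
    rw [norm_div, Complex.norm_ofNat]
    linarith [norm_add_le (pd j (fun y => w y i) x) (pd i (fun y => w y j) x), h i j, h j i]
  have hs : ‖∑ i, ∑ j, ((pd j (fun y => u y i) x + pd i (fun y => u y j) x) / 2) *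
      ((pd j (fun y => v y i) x + pd i (fun y => v y j) x) / 2)‖ ≤ 9 * (a * b) := by
    refine (norm_sum_le _ _).trans (((Finset.sum_le_sum fun i _ => norm_sum_le _ _).trans
      (Finset.sum_le_sum fun i _ => Finset.sum_le_sum fun j _ => ?_)).trans_eq
        (by simp; ring : ∑ _i : Fin 3, ∑ _j : Fin 3, a * b = 9 * (a * b)))
    rw [norm_mul]
    exact mul_le_mul (he ha i j) (he hb i j) (norm_nonneg _) ha0
  refine (norm_add_le _ _).trans ?_
  simp only [norm_mul, eL, eM, Complex.norm_ofNat, gap]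
  have h1 : ‖divv u x‖ * ‖divv v x‖ ≤ 3 * a * (3 * b) :=
    mul_le_mul (hd ha) (hd hb) (norm_nonneg _) (by positivity)
  have hab : 0 ≤ a * b := mul_nonneg ha0 hb0
  nlinarith [abs_nonneg (M₁.lam x - M₂.lam x), abs_nonneg (M₁.mu x - M₂.mu x),
    mul_le_mul_of_nonneg_left h1 (abs_nonneg (M₁.lam x - M₂.lam x)),
    mul_le_mul_of_nonneg_left hs (abs_nonneg (M₁.mu x - M₂.mu x))]

theorem norm_pd_le_sqrt (u : Space → C3) (x : Space) (i j : Fin 3) :
    ‖pd j (fun y => u y i) x‖ ≤ Real.sqrt (gradSqr u x) := by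
  refine Real.le_sqrt_of_sq_le ?_
  exact le_trans (Finset.single_le_sum (f := fun l => ‖pd l (fun y => u y i) x‖ ^ 2)
      (fun l _ => sq_nonneg _) (Finset.mem_univ j))
    (Finset.single_le_sum (f := fun k => ∑ l, ‖pd l (fun y => u y k) x‖ ^ 2)
      (fun k _ => by positivity) (Finset.mem_univ i))

theorem continuous_diffDens (M₁ M₂ : Moduli) {u v : Space → C3} (hu : ContDiff ℝ 1 u)
    (hv : ContDiff ℝ 1 v) : Continuous (diffDens M₁ M₂ u v) := by
  have c1 := M₁.contDiff_lamC.continuous; have c2 := M₂.contDiff_lamC.continuous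
  have c3 := M₁.contDiff_muC.continuous; have c4 := M₂.contDiff_muC.continuous
  have c5 := continuous_divv hu; have c6 := continuous_divv hv
  have c7 := fun i j => continuous_pd' (contDiff_pi.1 hu i) j
  have c8 := fun i j => continuous_pd' (contDiff_pi.1 hv i) j
  unfold diffDens
  fun_prop

theorem cform_sub_cform (M₁ M₂ : Moduli) {Ω : Set Space} (hb : Bornology.IsBounded Ω)
    {u v : Space → C3} (hu : ContDiff ℝ 1 u) (hv : ContDiff ℝ 1 v) :
    M₁.cform Ω u v - M₂.cform Ω u v = ∫ x in Ω, diffDens M₁ M₂ u v x := by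
  have c5 := continuous_divv hu; have c6 := continuous_divv hv
  have c7 := fun i j => continuous_pd' (contDiff_pi.1 hu i) j
  have c8 := fun i j => continuous_pd' (contDiff_pi.1 hv i) j
  have hc : ∀ M : Moduli, IntegrableOn (fun x => M.lamC x * (divv u x * divv v x) + 2 * M.muC x *
      ∑ i, ∑ j, ((pd j (fun y => u y i) x + pd i (fun y => u y j) x) / 2) *
        ((pd j (fun y => v y i) x + pd i (fun y => v y j) x) / 2)) Ω := fun M => by
    have c1 := M.contDiff_lamC.continuous; have c3 := M.contDiff_muC.continuous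
    exact integrableOn_of_continuous hb (by fun_prop)
  unfold Moduli.cform
  rw [← integral_sub (hc M₁) (hc M₂)]
  refine integral_congr_ae (Eventually.of_forall fun x => ?_)
  simp only [diffDens]
  ring

theorem diffDens_expand (M₁ M₂ : Moduli) {Φ U Ψ V : Space → C3} (h1 : ContDiff ℝ 1 Φ)
    (h2 : ContDiff ℝ 1 U) (h3 : ContDiff ℝ 1 Ψ) (h4 : ContDiff ℝ 1 V) (x : Space) :
    diffDens M₁ M₂ (Φ + U) (Ψ + V) x = diffDens M₁ M₂ Φ Ψ x + (diffDens M₁ M₂ Φ V x +
      diffDens M₁ M₂ U Ψ x + diffDens M₁ M₂ U V x) := by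
  have e : ∀ {a b : Space → C3}, ContDiff ℝ 1 a → ContDiff ℝ 1 b → ∀ k l,
      pd l (fun y => (a + b) y k) x = pd l (fun y => a y k) x + pd l (fun y => b y k) x :=
    fun ha hb k l => pd_add l ((contDiff_pi.1 ha k).differentiable one_ne_zero x)
      ((contDiff_pi.1 hb k).differentiable one_ne_zero x)
  simp only [diffDens, divv, e h1 h2, e h3 h4, Fin.sum_univ_three]
  ring

/-- The identity forces the singular part to be small. -/
theorem main_le {Ω : Set Space} (hForm : FormStmt) {M₁ M₂ : Moduli} (hΩ : IsOpen Ω)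
    (hb : Bornology.IsBounded Ω) (hS : SameMap Ω M₁.lam M₁.mu M₂.lam M₂.mu) {y : Space}
    {d B L s N N' : ℝ} (hd : 0 < d) (hB : 0 ≤ B) (hL : 0 ≤ L) (hs : 0 < s) {om : Space → ℝ}
    (hω : Continuous om) (hgap : ∀ x ∈ Ω, gap M₁ M₂ x ≤ L ∧ gap M₁ M₂ x * wt y d 3 x ≤ L * om x)
    (hωN : s * ∫ x in Ω, om x ^ 2 ≤ N) {Φ Ψ : Space → C3} (hΦ : ContDiff ℝ 1 Φ) (hΨ : ContDiff ℝ 1 Ψ)
    (bΦ : ∀ x ∈ Ω, ∀ i j, ‖pd j (fun w => Φ w i) x‖ ≤ B * wt y d 3 x)
    (bΨ : ∀ x ∈ Ω, ∀ i j, ‖pd j (fun w => Ψ w i) x‖ ≤ B * wt y d 3 x) {U V : ℕ → Space → C3}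
    (hU : ∀ k, ContDiff ℝ 1 (U k)) (hV : ∀ k, ContDiff ℝ 1 (V k))
    (hUa : ApproxSol Ω M₂ fun k => Φ + U k) (hVa : ApproxSol Ω M₁ fun k => Ψ + V k)
    (nU : ∀ k, ∫ x in Ω, gradSqr (U k) x ≤ N') (nV : ∀ k, ∫ x in Ω, gradSqr (V k) x ≤ N') :
    ‖∫ x in Ω, diffDens M₁ M₂ Φ Ψ x‖ ≤ 20 * L * (B ^ 2 * N + (1 / s + 1) * (2 * N')) := by
  have hF := hForm Ω M₁ M₂ hΩ hb hS _ _ hUa hVa
  set rest := fun k x => diffDens M₁ M₂ Φ (V k) x + diffDens M₁ M₂ (U k) Ψ x + diffDens M₁ M₂ (U k) (V k) x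
  have hrc : ∀ k, IntegrableOn (rest k) Ω := fun k => integrableOn_of_continuous hb
    (((continuous_diffDens M₁ M₂ hΦ (hV k)).add (continuous_diffDens M₁ M₂ (hU k) hΨ)).add
      (continuous_diffDens M₁ M₂ (hU k) (hV k)))
  have e : ∀ k, M₁.cform Ω (Φ + U k) (Ψ + V k) - M₂.cform Ω (Φ + U k) (Ψ + V k) =
      (∫ x in Ω, diffDens M₁ M₂ Φ Ψ x) + ∫ x in Ω, rest k x := fun k => by
    have h := cform_sub_cform (Ω := Ω) M₁ M₂ hb (u := Φ + U k) (v := Ψ + V k) (hΦ.add (hU k)) (hΨ.add (hV k))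
    rw [h,
      ← integral_add (integrableOn_of_continuous hb (continuous_diffDens M₁ M₂ hΦ hΨ)) (hrc k)]
    exact integral_congr_ae (Eventually.of_forall fun x => diffDens_expand M₁ M₂ hΦ (hU k) hΨ (hV k) x)
  simp only [e] at hF
  have hlim : Tendsto (fun k => ∫ x in Ω, rest k x) atTop (𝓝 (-∫ x in Ω, diffDens M₁ M₂ Φ Ψ x)) := by
    have := hF.const_add (-∫ x in Ω, diffDens M₁ M₂ Φ Ψ x)
    simpa using this
  rw [← norm_neg]
  refine le_of_tendsto' hlim.norm fun k => ?_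
  have gU := continuous_gradSqr (hU k); have gV := continuous_gradSqr (hV k)
  have iom : IntegrableOn (fun x => B ^ 2 * (s * om x ^ 2)) Ω :=
    integrableOn_of_continuous hb (continuous_const.mul (continuous_const.mul (hω.pow 2)))
  have iG : IntegrableOn (fun x => (1 / s + 1) * (gradSqr (U k) x + gradSqr (V k) x)) Ω :=
    integrableOn_of_continuous hb (continuous_const.mul (gU.add gV))
  calc ‖∫ x in Ω, rest k x‖ ≤ ∫ x in Ω, ‖rest k x‖ := norm_integral_le_integral_norm _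
    _ ≤ ∫ x in Ω, 20 * L * (B ^ 2 * (s * om x ^ 2) + (1 / s + 1) * (gradSqr (U k) x + gradSqr (V k) x)) := by
      refine setIntegral_mono_on (hrc k).norm ((iom.add iG).const_mul _) hΩ.measurableSet fun x hx => ?_
      obtain ⟨g1, g2⟩ := hgap x hx
      have hgU := Real.sq_sqrt (gradSqr_nonneg (U k) x)
      have hgV := Real.sq_sqrt (gradSqr_nonneg (V k) x)
      set a := Real.sqrt (gradSqr (U k) x)
      set b := Real.sqrt (gradSqr (V k) x)
      have ha0 : 0 ≤ a := Real.sqrt_nonneg _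
      have hb0 : 0 ≤ b := Real.sqrt_nonneg _
      have hw := mul_nonneg hB (wt_nonneg (y := y) hd 3 x)
      have hg0 : 0 ≤ gap M₁ M₂ x := by unfold gap; positivity
      have t1 := norm_diffDens_le M₁ M₂ hw hb0 (bΦ x hx) (norm_pd_le_sqrt (V k) x)
      have t2 := norm_diffDens_le M₁ M₂ ha0 hw (norm_pd_le_sqrt (U k) x) (bΨ x hx)
      have t3 := norm_diffDens_le M₁ M₂ ha0 hb0 (norm_pd_le_sqrt (U k) x) (norm_pd_le_sqrt (V k) x)
      have am : ∀ c : ℝ, 0 ≤ c → B * om x * c ≤ B ^ 2 * (s * om x ^ 2) / 2 + c ^ 2 / s / 2 := fun c _ => by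
        have h : 0 ≤ (s * (B * om x) - c) ^ 2 / s := by positivity
        have h' : (s * (B * om x) - c) ^ 2 / s = B ^ 2 * (s * om x ^ 2) - 2 * (B * om x * c) + c ^ 2 / s := by
          field_simp; ring
        linarith
      have u1 : gap M₁ M₂ x * (B * wt y d 3 x * b) ≤ L * (B * om x * b) := by
        nlinarith [mul_le_mul_of_nonneg_right g2 (mul_nonneg hB hb0)]
      have u2 : gap M₁ M₂ x * (a * (B * wt y d 3 x)) ≤ L * (B * om x * a) := by
        nlinarith [mul_le_mul_of_nonneg_right g2 (mul_nonneg hB ha0)]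
      have u3 : gap M₁ M₂ x * (a * b) ≤ L * ((a ^ 2 + b ^ 2) / 2) :=
        mul_le_mul g1 (by nlinarith [sq_nonneg (a - b)]) (mul_nonneg ha0 hb0) hL
      have v1 := mul_le_mul_of_nonneg_left (am b hb0) hL
      have v2 := mul_le_mul_of_nonneg_left (am a ha0) hL
      have hn : ‖rest k x‖ ≤ ‖diffDens M₁ M₂ Φ (V k) x‖ + ‖diffDens M₁ M₂ (U k) Ψ x‖ +
          ‖diffDens M₁ M₂ (U k) (V k) x‖ := norm_add₃_le
      have h0 : 0 ≤ L * (a ^ 2 / s) ∧ 0 ≤ L * (b ^ 2 / s) ∧ 0 ≤ L * a ^ 2 ∧ 0 ≤ L * b ^ 2 :=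
        ⟨by positivity, by positivity, by positivity, by positivity⟩
      calc ‖rest k x‖ ≤ 20 * L * (B ^ 2 * (s * om x ^ 2) + (1 / s + 1) * (a ^ 2 + b ^ 2)) := by
            rw [add_mul (1 / s), one_mul, mul_add (1 / s), one_div_mul_eq_div, one_div_mul_eq_div]
            linarith [h0.1, h0.2.1, h0.2.2.1, h0.2.2.2]
        _ = _ := by rw [hgU, hgV]
    _ ≤ 20 * L * (B ^ 2 * N + (1 / s + 1) * (2 * N')) := by
      rw [integral_const_mul, integral_add iom iG, integral_const_mul, integral_const_mul,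
        integral_const_mul, integral_add (integrableOn_of_continuous hb gU)
          (integrableOn_of_continuous hb gV)]
      gcongr
      linarith [nU k, nV k]

theorem dist_z_le {z e x : Space} (he : e 0 ^ 2 + e 1 ^ 2 + e 2 ^ 2 = 1) {d : ℝ} (hd : 0 < d) :
    ‖x - z‖ ≤ d + ‖x - (z + d • e)‖ := by
  calc ‖x - z‖ = ‖(x - (z + d • e)) + d • e‖ := by congr 1; abel
    _ ≤ ‖x - (z + d • e)‖ + ‖d • e‖ := norm_add_le _ _
    _ ≤ d + ‖x - (z + d • e)‖ := by
        rw [norm_smul, Real.norm_eq_abs, abs_of_pos hd]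
        nlinarith [norm_le_one_of_unit he]

theorem wt_mul_wt (y : Space) (d : ℝ) (p q : ℕ) (x : Space) :
    wt y d p x * wt y d q x = wt y d (p + q) x := (pow_add _ p q).symm

theorem mul_wt_succ {y : Space} {d : ℝ} (hd : 0 < d) (p : ℕ) (x : Space) :
    (d + ‖x - y‖) * wt y d (p + 1) x = wt y d p x := by
  have : d + ‖x - y‖ ≠ 0 := (by positivity : (0 : ℝ) < d + ‖x - y‖).ne'
  rw [wt, wt, pow_succ, mul_comm, mul_assoc, inv_mul_cancel₀ this, mul_one]

/-- Correctors of singular fields have norm of order `d ^ (-1/2)`. -/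
theorem exists_singular_solution (hSol : SolveStmt) (hDisp : DispSolStmt) (M : Moduli)
    {Ω : Set Space} (hΩ : IsOpen Ω) (hb : Bornology.IsBounded Ω) {z e : Space} {K d₀ : ℝ}
    (hP : Probe Ω z e K d₀) :
    ∃ C : ℝ, 0 ≤ C ∧ ∀ d, 0 < d → d ≤ d₀ → ∀ (B : ℝ) (Φ : Space → C3), 0 ≤ B →
      Singular Ω M z (z + d • e) d B Φ →
      ∃ U : ℕ → Space → C3, ApproxSol Ω M (fun k => Φ + U k) ∧ (∀ k, ContDiff ℝ 1 (U k)) ∧
        ∀ k, ∫ x in Ω, gradSqr (U k) x ≤ C * B ^ 2 / d := by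
  obtain ⟨r₀, hr₀⟩ := hb.closure.subset_closedBall (0 : Space)
  set r := max r₀ 0 + 1 with hr
  have hrpos : 0 < r := by positivity
  have hR : closure Ω ⊆ ball (0 : Space) (r + 1) := fun x hx => by
    have := mem_closedBall.1 (hr₀ hx)
    rw [mem_ball]; linarith [le_max_left r₀ 0]
  obtain ⟨C, hC, hcor⟩ := exists_correction hSol hDisp M hΩ hb hR
  let χ : ContDiffBump (0 : Space) := ⟨r, r + 1, hrpos, by linarith⟩
  obtain ⟨L₁, hL₁, hl⟩ := taylor M.lam_smooth z (r + 1 + ‖z‖)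
  obtain ⟨L₂, hL₂, hm⟩ := taylor M.mu_smooth z (r + 1 + ‖z‖)
  set I := ∫ x : Space, wt 0 1 4 x with hI
  have hI0 : 0 ≤ I := integral_wt_nonneg 4
  refine ⟨C * (9 * (5 * (L₁ + L₂)) ^ 2 * I), by positivity, fun d hd hd₀ B Φ hB hΦ => ?_⟩
  set y := z + d • e with hy
  set ψ : Space → ℝ := fun x => Real.smoothTransition (sqd y x / eps' d - 3) with hψ
  set cut : Space → ℂ := fun x => ((χ x * ψ x : ℝ) : ℂ) with hcut
  have hcuts : ContDiff ℝ ∞ cut := Complex.ofRealCLM.contDiff.comp (χ.contDiff.mul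
    (Real.smoothTransition.contDiff.comp (((contDiff_sqd y).div_const _).sub contDiff_const)))
  set H : Fin 3 → Space → C3 := fun j x i =>
    cut x * (stress M Φ i j x - stress0 (M.muC z) (M.AC z) Φ i j x) with hH
  have hs0 : ∀ i j, ContDiff ℝ ∞ (stress0 (M.muC z) (M.AC z) Φ i j) := fun i j =>
    ((contDiff_const.mul (ContDiff.sum fun k _ => contDiff_pd (contDiff_pi.1 hΦ.smooth k) k)).mul
      contDiff_const).add (contDiff_const.mul ((contDiff_pd (contDiff_pi.1 hΦ.smooth i) j).add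
        (contDiff_pd (contDiff_pi.1 hΦ.smooth j) i)))
  have hHs : ∀ j, ContDiff ℝ ∞ (H j) := fun j => contDiff_pi.2 fun i =>
    hcuts.mul ((contDiff_stress M hΦ.smooth i j).sub (hs0 i j))
  have hχ0 : ∀ x, x ∉ closedBall (0 : Space) (r + 1) → χ x = 0 := fun x hx =>
    χ.zero_of_le_dist (by have h := mem_closedBall.not.1 hx; exact (not_le.1 h).le)
  have hH0 : ∀ j x, x ∉ closedBall (0 : Space) (r + 1) → H j x = 0 := fun j x hx => by
    funext i; simp [hH, hcut, hχ0 x hx]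
  have hdiv : ∀ x ∈ Ω, ∀ i, ∑ j, pd j (fun w => stress M Φ i j w - H j w i) x = 0 := by
    intro x hx i
    rw [← hΦ.free x hx i]
    refine Finset.sum_congr rfl fun j _ => pd_congr ?_ j
    filter_upwards [hΩ.mem_nhds hx] with w hw
    have h1 : χ w = 1 := χ.one_of_mem_closedBall (by
      have := mem_closedBall.1 (hr₀ (subset_closure hw))
      exact mem_closedBall.2 (this.trans (by linarith [le_max_left r₀ 0] : r₀ ≤ r)))
    have h2 : ψ w = 1 := Real.smoothTransition.one_of_one_le (by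
      have := (far_of_dist hd (hP.away d hd hd₀ w hw)).2
      rw [le_sub_iff_add_le, le_div_iff₀ (eps'_pos hd)]
      linarith)
    simp [hH, hcut, h1, h2]
  obtain ⟨U, hU1, hU2, hU3⟩ := hcor Φ hΦ.smooth H hHs hH0 hdiv
  refine ⟨U, hU1, hU2, fun k => (hU3 k).trans ?_⟩
  have hpt : ∀ x, ∑ j, ∑ i, ‖H j x i‖ ^ 2 ≤ 9 * (5 * (L₁ + L₂)) ^ 2 * B ^ 2 * wt y d 4 x := by
    intro x
    have hrhs : ∀ i j, ‖H j x i‖ ≤ 5 * (L₁ + L₂) * B * wt y d 2 x := by
      intro i j
      by_cases hcx : cut x = 0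
      · simp only [hH, hcx, zero_mul, norm_zero]
        have := wt_nonneg (y := y) hd 2 x
        positivity
      have hxR : x ∈ closedBall (0 : Space) (r + 1) := by
        by_contra h; exact hcx (by simp [hcut, hχ0 x h])
      have hfar : Far y (eps' d) x := by
        by_contra h
        refine hcx ?_
        have : ψ x = 0 := Real.smoothTransition.zero_of_nonpos (by
          rw [sub_nonpos, div_le_iff₀ (eps'_pos hd)]
          unfold Far at h; linarith [eps'_pos hd])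
        simp [hcut, this]
      have hcn : ‖cut x‖ ≤ 1 := by
        rw [hcut, Complex.norm_real, Real.norm_eq_abs, abs_of_nonneg (mul_nonneg χ.nonneg
          (Real.smoothTransition.nonneg _))]
        exact mul_le_one₀ χ.le_one (Real.smoothTransition.nonneg _) (Real.smoothTransition.le_one _)
      have hxz : x ∈ closedBall z (r + 1 + ‖z‖) := by
        rw [mem_closedBall, dist_eq_norm]
        have := mem_closedBall_zero_iff.1 hxR
        linarith [norm_sub_le x z]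
      have hdz := dist_z_le (z := z) (x := x) hP.unit hd
      have bl : ‖M.lamC x - M.lamC z‖ ≤ L₁ * (d + ‖x - y‖) := by
        rw [Moduli.lamC, Moduli.lamC, ← Complex.ofReal_sub, Complex.norm_real, Real.norm_eq_abs]
        exact (hl x hxz).1.trans (mul_le_mul_of_nonneg_left hdz hL₁)
      have bm : ‖M.muC x - M.muC z‖ ≤ L₂ * (d + ‖x - y‖) := by
        rw [Moduli.muC, Moduli.muC, ← Complex.ofReal_sub, Complex.norm_real, Real.norm_eq_abs]
        exact (hm x hxz).1.trans (mul_le_mul_of_nonneg_left hdz hL₂)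
      have e1 : H j x i = cut x * ((M.lamC x - M.lamC z) * divv Φ x * (if i = j then 1 else 0) +
          (M.muC x - M.muC z) * (pd j (fun w => Φ w i) x + pd i (fun w => Φ w j) x)) := by
        simp only [hH, stress, stress0, Moduli.AC_eq]; ring
      have hdv : ‖divv Φ x‖ ≤ 3 * (B * wt y d 3 x) :=
        (norm_sum_le _ _).trans ((Finset.sum_le_sum fun k _ => hΦ.bound x hfar k k).trans_eq (by simp))
      have h2 : ‖pd j (fun w => Φ w i) x + pd i (fun w => Φ w j) x‖ ≤ 2 * (B * wt y d 3 x) :=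
        (norm_add_le _ _).trans (by linarith [hΦ.bound x hfar i j, hΦ.bound x hfar j i])
      have hδ : ‖(if i = j then (1 : ℂ) else 0)‖ ≤ 1 := by split <;> simp
      have hw3 := wt_nonneg (y := y) hd 3 x
      rw [e1, norm_mul]
      refine (mul_le_of_le_one_left (norm_nonneg _) hcn).trans ((norm_add_le _ _).trans ?_)
      rw [norm_mul, norm_mul, norm_mul]
      calc _ ≤ L₁ * (d + ‖x - y‖) * (3 * (B * wt y d 3 x)) * 1 +
            L₂ * (d + ‖x - y‖) * (2 * (B * wt y d 3 x)) := by gcongr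
        _ = (3 * L₁ + 2 * L₂) * B * wt y d 2 x := by rw [← mul_wt_succ hd 2 x]; ring
        _ ≤ _ := by gcongr <;> linarith [wt_nonneg (y := y) hd 2 x]
    calc ∑ j, ∑ i, ‖H j x i‖ ^ 2 ≤ ∑ _j : Fin 3, ∑ _i : Fin 3, (5 * (L₁ + L₂) * B * wt y d 2 x) ^ 2 := by
          gcongr; exact hrhs _ _
      _ = 9 * (5 * (L₁ + L₂)) ^ 2 * B ^ 2 * (wt y d 2 x * wt y d 2 x) := by simp; ring
      _ = _ := by rw [wt_mul_wt]
  have hint : Integrable fun x => 9 * (5 * (L₁ + L₂)) ^ 2 * B ^ 2 * wt y d 4 x :=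
    (integrable_wt hd le_rfl).1.const_mul _
  calc C * ∫ x, ∑ j, ∑ i, ‖H j x i‖ ^ 2 ≤ C * ∫ x, 9 * (5 * (L₁ + L₂)) ^ 2 * B ^ 2 * wt y d 4 x := by
        refine mul_le_mul_of_nonneg_left (integral_mono_of_nonneg
          (Eventually.of_forall fun x => by positivity) hint (Eventually.of_forall hpt)) hC
    _ = C * (9 * (5 * (L₁ + L₂)) ^ 2 * I) * B ^ 2 / d := by
        rw [integral_const_mul, (integrable_wt hd le_rfl).2, ← hI]
        field_simp

/-! ### Moments -/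

theorem inner_moment {Ω : Set Space} (hΩ : IsOpen Ω) (hb : Bornology.IsBounded Ω) {z e : Space}
    {K d₀ d : ℝ} (hP : Probe Ω z e K d₀) (hd : 0 < d) (hd₀ : d ≤ d₀) {g : Space → ℝ} (hg : Continuous g)
    (hg0 : ∀ x ∈ Ω, 0 ≤ g x) {c : ℝ} (hge : ∀ x ∈ ball (z - (3 * d) • e) (d / 10), c ≤ g x) :
    c * (d / 5) ^ 3 ≤ ∫ x in Ω, g x := by
  have hsub := hP.inside d hd hd₀
  have hv : (volume (ball (z - (3 * d) • e) (d / 10))).toReal = (d / 5) ^ 3 := by
    rw [Real.volume_pi_ball _ (by positivity), ENNReal.toReal_ofReal (by positivity), Fintype.card_fin]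
    ring
  calc c * (d / 5) ^ 3 = ∫ _x in ball (z - (3 * d) • e) (d / 10), c := by
        rw [setIntegral_const, measureReal_def, hv, smul_eq_mul, mul_comm]
    _ ≤ ∫ x in ball (z - (3 * d) • e) (d / 10), g x :=
        setIntegral_mono_on (integrableOn_of_continuous isBounded_ball continuous_const)
          (integrableOn_of_continuous isBounded_ball hg) measurableSet_ball hge
    _ ≤ ∫ x in Ω, g x := by
        refine setIntegral_mono_set (integrableOn_of_continuous hb hg) ?_ (LE.le.eventuallyLE hsub)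
        exact (ae_restrict_iff' hΩ.measurableSet).2 (Eventually.of_forall hg0)

theorem integral_le_wt {Ω : Set Space} (hΩ : IsOpen Ω) (hb : Bornology.IsBounded Ω) {y : Space}
    {d c : ℝ} (hd : 0 < d) (hc : 0 ≤ c) {p : ℕ} (hp : 4 ≤ p) {g : Space → ℝ} (hg : Continuous g)
    (h : ∀ x ∈ Ω, g x ≤ c * wt y d p x) :
    ∫ x in Ω, g x ≤ c * (d⁻¹ ^ p * d ^ 3 * ∫ x : Space, wt 0 1 p x) := by
  calc ∫ x in Ω, g x ≤ ∫ x in Ω, c * wt y d p x :=
        setIntegral_mono_on (integrableOn_of_continuous hb hg)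
          (integrableOn_of_continuous hb (continuous_const.mul (continuous_wt hd p))) hΩ.measurableSet h
    _ ≤ _ := by rw [integral_const_mul]; exact mul_le_mul_of_nonneg_left (setIntegral_wt_le hd hp Ω) hc

theorem integrand_value {Ω : Set Space} (hΩ : IsOpen Ω) (hb : Bornology.IsBounded Ω) {z e : Space}
    {K d₀ d a L c : ℝ} (hP : Probe Ω z e K d₀) (hd : 0 < d) (hd₀ : d ≤ d₀) (hc : 0 ≤ c) (hL : 0 ≤ L)
    {f q : Space → ℝ} (hf : Continuous f) (hq : Continuous q) (hf1 : ∀ x ∈ Ω, |f x - a| ≤ L * ‖x - z‖)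
    (hq0 : ∀ x ∈ Ω, 0 ≤ q x) (hq1 : ∀ x ∈ Ω, q x ≤ c * wt (z + d • e) d 6 x)
    (hq2 : ∀ x ∈ ball (z - (3 * d) • e) (d / 10), d⁻¹ ^ 6 / 8000 ≤ q x) :
    |a| * d⁻¹ ^ 3 ≤ 1000000 * (|∫ x in Ω, f x * q x| + L * c * (∫ x : Space, wt 0 1 5 x) * d⁻¹ ^ 2) := by
  have h1 := inner_moment hΩ hb hP hd hd₀ hq hq0 hq2
  have i1 : IntegrableOn (fun x => f x * q x) Ω := integrableOn_of_continuous hb (hf.mul hq)
  have i2 : IntegrableOn (fun x => a * q x) Ω :=
    integrableOn_of_continuous hb (continuous_const.mul hq)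
  have h2 : |∫ x in Ω, (f x - a) * q x| ≤ L * c * (∫ x : Space, wt 0 1 5 x) * d⁻¹ ^ 2 := by
    refine (abs_integral_le_integral_abs).trans ((integral_le_wt (y := z + d • e) hΩ hb hd (mul_nonneg hL hc)
      (p := 5) (by norm_num) (g := fun x => |(f x - a) * q x|) (((hf.sub continuous_const).mul hq).abs) fun x hx => ?_).trans_eq ?_)
    · rw [abs_mul, abs_of_nonneg (hq0 x hx)]
      calc |f x - a| * q x ≤ L * (d + ‖x - (z + d • e)‖) * (c * wt (z + d • e) d 6 x) :=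
            mul_le_mul ((hf1 x hx).trans (mul_le_mul_of_nonneg_left (dist_z_le hP.unit hd) hL))
              (hq1 x hx) (hq0 x hx) (by positivity)
        _ = L * c * wt (z + d • e) d 5 x := by rw [← mul_wt_succ hd 5 x]; ring
    · field_simp
  have h3 : (∫ x in Ω, (f x - a) * q x) = (∫ x in Ω, f x * q x) - a * ∫ x in Ω, q x := by
    simp only [sub_mul]
    rw [integral_sub i1 i2, integral_const_mul]
  have h4 : |a| * ∫ x in Ω, q x ≤ |∫ x in Ω, f x * q x| + |∫ x in Ω, (f x - a) * q x| := by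
    rw [h3, ← abs_of_nonneg (setIntegral_nonneg hΩ.measurableSet hq0), ← abs_mul,
      abs_of_nonneg (setIntegral_nonneg hΩ.measurableSet hq0)]
    have := abs_sub (∫ x in Ω, f x * q x) ((∫ x in Ω, f x * q x) - a * ∫ x in Ω, q x)
    rwa [sub_sub_cancel] at this
  have h5 : d⁻¹ ^ 6 / 8000 * (d / 5) ^ 3 = d⁻¹ ^ 3 / 1000000 := by field_simp; ring
  rw [h5] at h1
  nlinarith [mul_le_mul_of_nonneg_left h1 (abs_nonneg a)]

theorem integrand_slope {Ω : Set Space} (hΩ : IsOpen Ω) (hb : Bornology.IsBounded Ω) {z e : Space}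
    {K d₀ d a L c : ℝ} (hP : Probe Ω z e K d₀) (hd : 0 < d) (hd₀ : d ≤ d₀) (hc : 0 ≤ c) (hL : 0 ≤ L)
    {f q : Space → ℝ} (hf : Continuous f) (hq : Continuous q)
    (hf1 : ∀ x ∈ Ω, |f x - a * edot e (x - z)| ≤ L * ‖x - z‖ ^ 2)
    (hq0 : ∀ x ∈ Ω, 0 ≤ q x) (hq1 : ∀ x ∈ Ω, q x ≤ c * wt (z + d • e) d 6 x)
    (hq2 : ∀ x ∈ ball (z - (3 * d) • e) (d / 10), d⁻¹ ^ 6 / 8000 ≤ q x) :
    |a| * d⁻¹ ^ 2 ≤ 500000 * (|∫ x in Ω, f x * q x| +
      (L + |a| * K) * c * (∫ x : Space, wt 0 1 4 x) * d⁻¹) := by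
  have hK := hP.K_nonneg
  set t : Space → ℝ := fun x => edot e (x - z) with ht
  have htc : Continuous t := by unfold t edot; fun_prop
  have hnc : Continuous fun x : Space => ‖x - z‖ ^ 2 := (continuous_id.sub continuous_const).norm.pow 2
  have hsq : ∀ x ∈ Ω, ‖x - z‖ ^ 2 * q x ≤ c * wt (z + d • e) d 4 x := fun x hx => by
    calc ‖x - z‖ ^ 2 * q x ≤ (d + ‖x - (z + d • e)‖) ^ 2 * (c * wt (z + d • e) d 6 x) :=
          mul_le_mul (pow_le_pow_left₀ (norm_nonneg _) (dist_z_le hP.unit hd) 2) (hq1 x hx) (hq0 x hx)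
            (by positivity)
      _ = c * wt (z + d • e) d 4 x := by rw [← mul_wt_succ hd 4 x, ← mul_wt_succ hd 5 x]; ring
  have w4 : d⁻¹ ^ 4 * d ^ 3 = d⁻¹ := by field_simp
  have h2 : |∫ x in Ω, (f x - a * t x) * q x| ≤ L * c * (∫ x : Space, wt 0 1 4 x) * d⁻¹ := by
    refine (abs_integral_le_integral_abs).trans ((integral_le_wt (y := z + d • e) hΩ hb hd (mul_nonneg hL hc) le_rfl
      (g := fun x => |(f x - a * t x) * q x|) (((hf.sub (continuous_const.mul htc)).mul hq).abs) fun x hx => ?_).trans_eq (by rw [w4]; ring))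
    rw [abs_mul, abs_of_nonneg (hq0 x hx)]
    nlinarith [mul_le_mul_of_nonneg_right (hf1 x hx) (hq0 x hx),
      mul_le_mul_of_nonneg_left (hsq x hx) hL]
  have h6 : ∫ x in Ω, ‖x - z‖ ^ 2 * q x ≤ c * ((∫ x : Space, wt 0 1 4 x) * d⁻¹) :=
    (integral_le_wt hΩ hb hd hc le_rfl (hnc.mul hq) hsq).trans_eq (by rw [w4]; ring)
  have h1 := inner_moment hΩ hb hP hd hd₀ (g := fun x => (K * ‖x - z‖ ^ 2 - t x) * q x)
    (((continuous_const.mul hnc).sub htc).mul hq)
    (fun x hx => mul_nonneg (by have := hP.flat x hx; simp only [ht]; linarith) (hq0 x hx))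
    (c := 2 * d * (d⁻¹ ^ 6 / 8000)) fun x hx => by
      have h := dens_lower hd rfl hP.unit hx
      refine mul_le_mul ?_ (hq2 x hx) (by positivity) ?_ <;>
        nlinarith [h.1, mul_nonneg hK (sq_nonneg ‖x - z‖)]
  have h5 : 2 * d * (d⁻¹ ^ 6 / 8000) * (d / 5) ^ 3 = d⁻¹ ^ 2 / 500000 := by field_simp; ring
  have i1 : IntegrableOn (fun x => f x * q x) Ω := integrableOn_of_continuous hb (hf.mul hq)
  have i3 : IntegrableOn (fun x => K * (‖x - z‖ ^ 2 * q x)) Ω :=
    integrableOn_of_continuous hb (continuous_const.mul (hnc.mul hq))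
  have i4 : IntegrableOn (fun x => t x * q x) Ω := integrableOn_of_continuous hb (htc.mul hq)
  have i2 : IntegrableOn (fun x => a * (t x * q x)) Ω :=
    integrableOn_of_continuous hb (continuous_const.mul (htc.mul hq))
  have e1 : ∫ x in Ω, (K * ‖x - z‖ ^ 2 - t x) * q x =
      K * (∫ x in Ω, ‖x - z‖ ^ 2 * q x) - ∫ x in Ω, t x * q x := by
    rw [← integral_const_mul, ← integral_sub i3 i4]
    exact integral_congr_ae (Eventually.of_forall fun x => by simp only; ring)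
  have e2 : ∫ x in Ω, (f x - a * t x) * q x = (∫ x in Ω, f x * q x) - a * ∫ x in Ω, t x * q x := by
    rw [← integral_const_mul, ← integral_sub i1 i2]
    exact integral_congr_ae (Eventually.of_forall fun x => by simp only; ring)
  rw [h5, e1] at h1
  have h4 : |a| * |∫ x in Ω, t x * q x| ≤ |∫ x in Ω, f x * q x| + |∫ x in Ω, (f x - a * t x) * q x| := by
    rw [e2, ← abs_mul]
    have := abs_sub (∫ x in Ω, f x * q x) ((∫ x in Ω, f x * q x) - a * ∫ x in Ω, t x * q x)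
    rwa [sub_sub_cancel] at this
  have h7 : d⁻¹ ^ 2 / 500000 - K * (c * ((∫ x : Space, wt 0 1 4 x) * d⁻¹)) ≤ |∫ x in Ω, t x * q x| := by
    linarith [neg_le_abs (∫ x in Ω, t x * q x), mul_le_mul_of_nonneg_left h6 hK]
  nlinarith [mul_le_mul_of_nonneg_left h7 (abs_nonneg a)]

end

end Vale.Agent.P136.Full.Boundary
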