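import Mathlib
import Vale.Agent.P136.Full.Boundary.Estimates

/-!
# P136: boundary determination to first order
-/

open MeasureTheory Filter Set Metric
open scoped Topology ContDiff

namespace Vale.Agent.P136.Full.Boundary

noncomputable section

theorem eq_zero_of_le_mul {a C d₁ : ℝ} (hd₁ : 0 < d₁) (h : ∀ d, 0 < d → d ≤ d₁ → |a| ≤ C * d) :
    a = 0 := by
  by_contra ha
  have hpos := abs_pos.2 ha
  have hC : 0 ≤ C := by
    by_contra hC
    nlinarith [h d₁ hd₁ le_rfl]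
  have h2 := h (min d₁ (|a| / (2 * (C + 1)))) (lt_min hd₁ (by positivity)) (min_le_left _ _)
  have h3 := min_le_right d₁ (|a| / (2 * (C + 1)))
  have h4 : C * (|a| / (2 * (C + 1))) ≤ |a| / 2 := by
    rw [mul_div_assoc', div_le_div_iff₀ (by positivity) two_pos]; nlinarith
  nlinarith

theorem exists_radius {Ω : Set Space} (hb : Bornology.IsBounded Ω) (z : Space) :
    ∃ r : ℝ, Ω ⊆ closedBall z r :=
  hb.subset_closedBall z

theorem singular_phi1 {Ω : Set Space} (M : Moduli) {z e : Space} {K d₀ : ℝ}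
    (hP : Probe Ω z e K d₀) {d B : ℝ} (hd : 0 < d) (hd₀ : d ≤ d₀) (hB : 4 * 729 ≤ B) :
    Singular Ω M z (z + d • e) d B (phi1 (z + d • e) (eps' d)) := by
  set y := z + d • e
  have hε := eps'_pos hd
  refine ⟨contDiff_phi1 hε, fun x hx i j => ?_, fun x hx i => ?_⟩
  · rw [pd_phi1 hε hx]
    exact (norm_der1_le hd hx i j).trans (mul_le_mul_of_nonneg_right hB (wt_nonneg hd 3 x))
  · have hopen : IsOpen {w | Far y (eps' d) w} := isOpen_lt continuous_const (contDiff_sqd y).continuous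
    have hfar : ∀ w ∈ Ω, Far y (eps' d) w := fun w hw => (far_of_dist hd (hP.away d hd hd₀ w hw)).1
    have e1 : ∀ j, pd j (stress0 (M.muC z) (M.AC z) (phi1 y (eps' d)) i j) x =
        M.muC z * pd j (fun w => der1 y (eps' d) i j w + der1 y (eps' d) j i w) x := by
      intro j
      have hs : ContDiff ℝ ∞ fun w => der1 y (eps' d) i j w + der1 y (eps' d) j i w := by
        have h1 := contDiff_inv y (eps' d) hε
        have h3 := fun i => contDiff_rel y i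
        unfold der1; fun_prop
      rw [← smul_eq_mul, ← pd_const_smul j (M.muC z) (hs.differentiable (by simp) x)]
      refine pd_congr ?_ j
      filter_upwards [hopen.mem_nhds (hfar x hx)] with w hw
      have hdiv : divv (phi1 y (eps' d)) w = 0 := by
        simp only [divv, pd_phi1 hε hw]; exact trace_der1 hε hw
      simp only [stress0, hdiv, pd_phi1 hε hw, smul_eq_mul]
      ring
    rw [Finset.sum_congr rfl fun j _ => e1 j, ← Finset.mul_sum, div_stress1 hε (hfar x hx), mul_zero]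

theorem singular_phi2 {Ω : Set Space} (M : Moduli) {z e : Space} {K d₀ : ℝ}
    (hP : Probe Ω z e K d₀) {d B : ℝ} (hd : 0 < d) (hd₀ : d ≤ d₀)
    (hB : (20 * ‖M.muC z‖ + 180 * ‖M.AC z‖) * 729 ≤ B) :
    Singular Ω M z (z + d • e) d B (phi2 (z + d • e) e (eps' d) (M.muC z) (M.AC z)) := by
  set y := z + d • e
  have hε := eps'_pos hd
  refine ⟨contDiff_phi2 hε _ _, fun x hx i j => ?_, fun x hx i => ?_⟩
  · rw [pd_phi2 hε hx]
    exact (norm_der2_le hd hx (abs_le_one_of_unit hP.unit) _ _ i j).trans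
      (mul_le_mul_of_nonneg_right hB (wt_nonneg hd 3 x))
  · have hopen : IsOpen {w | Far y (eps' d) w} := isOpen_lt continuous_const (contDiff_sqd y).continuous
    have hfar : ∀ w ∈ Ω, Far y (eps' d) w := fun w hw => (far_of_dist hd (hP.away d hd hd₀ w hw)).1
    rw [← div_stress2 hε (hfar x hx) hP.unit (M.muC z) (M.AC z) i]
    refine Finset.sum_congr rfl fun j _ => pd_congr ?_ j
    filter_upwards [hopen.mem_nhds (hfar x hx)] with w hw
    have hdiv : divv (phi2 y e (eps' d) (M.muC z) (M.AC z)) w = div2 y e (eps' d) (M.muC z) w := by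
      simp only [divv, pd_phi2 hε hw]; exact trace_der2 hε hw hP.unit _ _
    simp only [stress0, hdiv, pd_phi2 hε hw, delta]

/-- The pairing of two singular fields is small. -/
theorem core (hForm : FormStmt) (hSol : SolveStmt) (hDisp : DispSolStmt) {Ω : Set Space}
    (hΩ : IsOpen Ω) (hb : Bornology.IsBounded Ω) (M₁ M₂ : Moduli)
    (hS : SameMap Ω M₁.lam M₁.mu M₂.lam M₂.mu) {z e : Space} {K d₀ : ℝ} (hP : Probe Ω z e K d₀)
    {B : ℝ} (hB : 0 ≤ B) :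
    ∃ C : ℝ, 0 ≤ C ∧ ∀ d, 0 < d → d ≤ min d₀ 1 → ∀ Φ Ψ : Space → C3,
      Singular Ω M₂ z (z + d • e) d B Φ → Singular Ω M₁ z (z + d • e) d B Ψ →
      ‖∫ x in Ω, diffDens M₁ M₂ Φ Ψ x‖ ≤ C * d⁻¹ ^ 2 ∧
        (M₁.lam z = M₂.lam z → M₁.mu z = M₂.mu z → ‖∫ x in Ω, diffDens M₁ M₂ Φ Ψ x‖ ≤ C * d⁻¹) := by
  obtain ⟨C₁, hC₁, h₁⟩ := exists_singular_solution hSol hDisp M₁ hΩ hb hP
  obtain ⟨C₂, hC₂, h₂⟩ := exists_singular_solution hSol hDisp M₂ hΩ hb hP
  obtain ⟨r, hr⟩ := exists_radius hb z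
  obtain ⟨L₁, hL₁, hl⟩ := taylor (M₁.lam_smooth.sub M₂.lam_smooth) z r
  obtain ⟨L₂, hL₂, hm⟩ := taylor (M₁.mu_smooth.sub M₂.mu_smooth) z r
  set I₆ := ∫ x : Space, wt 0 1 6 x with hI6
  set I₄ := ∫ x : Space, wt 0 1 4 x with hI4
  have hI6' : 0 ≤ I₆ := integral_wt_nonneg 6
  have hI4' : 0 ≤ I₄ := integral_wt_nonneg 4
  set r' := max r 0 with hr'
  set L := gap M₁ M₂ z + (L₁ + L₂) * (r' + 1) with hL
  have hg0 : 0 ≤ gap M₁ M₂ z := by unfold gap; positivity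
  have hL0 : 0 ≤ L := by positivity
  refine ⟨20 * L * (B ^ 2 * (I₆ + I₄) + 2 * (2 * ((C₁ + C₂) * B ^ 2))), by positivity,
    fun d hd hd₀ Φ Ψ hΦ hΨ => ?_⟩
  have hdd := hd₀.trans (min_le_left _ _)
  have hd1 : d ≤ 1 := hd₀.trans (min_le_right _ _)
  obtain ⟨U, hUa, hU, nU⟩ := h₂ d hd hdd B Φ hB hΦ
  obtain ⟨V, hVa, hV, nV⟩ := h₁ d hd hdd B Ψ hB hΨ
  set N' := (C₁ + C₂) * B ^ 2 * d⁻¹ with hN'
  have nU' : ∀ k, ∫ x in Ω, gradSqr (U k) x ≤ N' := fun k => (nU k).trans (by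
    rw [hN', div_eq_mul_inv]; gcongr; linarith)
  have nV' : ∀ k, ∫ x in Ω, gradSqr (V k) x ≤ N' := fun k => (nV k).trans (by
    rw [hN', div_eq_mul_inv]; gcongr; linarith)
  set y := z + d • e with hy
  have hbd : ∀ {Θ : Space → C3} {M : Moduli}, Singular Ω M z y d B Θ →
      ∀ x ∈ Ω, ∀ i j, ‖pd j (fun w => Θ w i) x‖ ≤ B * wt y d 3 x := fun h x hx i j =>
    h.bound x (far_of_dist hd (hP.away d hd hdd x hx)).1 i j
  have hgap : ∀ x ∈ Ω, gap M₁ M₂ x ≤ gap M₁ M₂ z + (L₁ + L₂) * ‖x - z‖ := fun x hx => by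
    have k1 := (hl x (hr hx)).1
    have k2 := (hm x (hr hx)).1
    simp only [gap]
    linarith [abs_sub_abs_le_abs_sub (M₁.lam x - M₂.lam x) (M₁.lam z - M₂.lam z),
      abs_sub_abs_le_abs_sub (M₁.mu x - M₂.mu x) (M₁.mu z - M₂.mu z)]
  have hgapL : ∀ x ∈ Ω, gap M₁ M₂ x ≤ L := fun x hx => (hgap x hx).trans (by
    rw [hL]; gcongr
    have := mem_closedBall.1 (hr hx)
    rw [dist_eq_norm] at this
    linarith [le_max_left r 0])
  have hsq : ∀ p : ℕ, (fun x => wt y d p x ^ 2) = wt y d (p + p) := fun p => by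
    funext x; rw [sq, wt_mul_wt]
  have hN : ∀ p, 4 ≤ p + p → ∫ x in Ω, wt y d p x ^ 2 ≤ d⁻¹ ^ (p + p) * d ^ 3 * ∫ x : Space, wt 0 1 (p + p) x :=
    fun p hp => by rw [hsq]; exact setIntegral_wt_le hd hp Ω
  have hdi : 1 ≤ d⁻¹ := (one_le_inv₀ hd).2 hd1
  constructor
  · have h := main_le hForm hΩ hb hS (y := y) (L := L) (s := d) (N := I₆ * d⁻¹ ^ 2) hd hB hL0 hd
      (continuous_wt hd 3) (fun x hx => ⟨hgapL x hx,
        mul_le_mul_of_nonneg_right (hgapL x hx) (wt_nonneg hd 3 x)⟩)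
      ((mul_le_mul_of_nonneg_left (hN 3 (by norm_num)) hd.le).trans_eq (by
        rw [hI6]; norm_num; field_simp))
      (hΦ.smooth.of_le (by simp)) (hΨ.smooth.of_le (by simp)) (hbd hΦ) (hbd hΨ) hU hV hUa hVa nU' nV'
    refine h.trans ?_
    rw [mul_assoc (20 * L)]
    refine mul_le_mul_of_nonneg_left ?_ (by positivity)
    have h1 : (1 / d + 1) * (2 * N') ≤ 2 * d⁻¹ * (2 * N') :=
      mul_le_mul_of_nonneg_right (by rw [one_div]; linarith) (by positivity)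
    have h2 : B ^ 2 * (I₆ * d⁻¹ ^ 2) ≤ B ^ 2 * ((I₆ + I₄) * d⁻¹ ^ 2) := by gcongr; linarith
    rw [hN'] at h1 ⊢
    linarith
  · intro el em
    have hg : gap M₁ M₂ z = 0 := by simp [gap, el, em]
    have h := main_le hForm hΩ hb hS (y := y) (L := L) (s := 1) (N := I₄ * d⁻¹) hd hB hL0 one_pos
      (continuous_wt hd 2) (fun x hx => ⟨hgapL x hx, ?_⟩)
      (by rw [one_mul]; exact (hN 2 (by norm_num)).trans_eq (by rw [hI4]; norm_num; field_simp))
      (hΦ.smooth.of_le (by simp)) (hΨ.smooth.of_le (by simp)) (hbd hΦ) (hbd hΨ) hU hV hUa hVa nU' nV'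
    · refine h.trans ?_
      rw [mul_assoc (20 * L)]
      refine mul_le_mul_of_nonneg_left ?_ (by positivity)
      have h2 : B ^ 2 * (I₄ * d⁻¹) ≤ B ^ 2 * ((I₆ + I₄) * d⁻¹) := by gcongr; linarith
      rw [hN']
      linarith
    · calc gap M₁ M₂ x * wt y d 3 x ≤ (L * (d + ‖x - y‖)) * wt y d 3 x := by
            refine mul_le_mul_of_nonneg_right ((hgap x hx).trans ?_) (wt_nonneg hd 3 x)
            rw [hg, zero_add]
            refine mul_le_mul ?_ (dist_z_le hP.unit hd) (norm_nonneg _) hL0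
            rw [hL, hg, zero_add]
            exact le_mul_of_one_le_right (by positivity) (by linarith [le_max_right r 0])
        _ = L * wt y d 2 x := by rw [mul_assoc, mul_wt_succ hd 2 x]

theorem continuous_dens (y e : Space) {d : ℝ} (hd : 0 < d) :
    Continuous (dens1 y (eps' d)) ∧ Continuous (dens2 y e (eps' d)) := by
  have h : Continuous fun x => (Real.sqrt (qreg y (eps' d) x))⁻¹ :=
    ((contDiff_qreg y _).continuous.sqrt).inv₀ fun x => (Real.sqrt_pos.2 (qreg_pos y _ (eps'_pos hd) x)).ne'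
  constructor
  · unfold dens1; fun_prop
  · unfold dens2 edot; fun_prop

theorem dens_nonneg (y e x : Space) (ε : ℝ) : 0 ≤ dens1 y ε x ∧ 0 ≤ dens2 y e ε x :=
  ⟨mul_nonneg (by norm_num) (pow_nonneg (inv_nonneg.2 (Real.sqrt_nonneg _)) 6), sq_nonneg _⟩

/-- The pairing of the first fields sees only the shear moduli. -/
theorem pairing1 {Ω : Set Space} (hΩ : IsOpen Ω) (M₁ M₂ : Moduli) {z e : Space} {K d₀ d : ℝ}
    (hP : Probe Ω z e K d₀) (hd : 0 < d) (hd₀ : d ≤ d₀) :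
    ∫ x in Ω, diffDens M₁ M₂ (phi1 (z + d • e) (eps' d)) (phi1 (z + d • e) (eps' d)) x =
      ((2 * ∫ x in Ω, (M₁.mu x - M₂.mu x) * dens1 (z + d • e) (eps' d) x : ℝ) : ℂ) := by
  rw [← integral_const_mul, ← integral_complex_ofReal]
  refine setIntegral_congr_fun hΩ.measurableSet fun x hx => ?_
  have hε := eps'_pos hd
  have hf := (far_of_dist hd (hP.away d hd hd₀ x hx)).1
  simp only [diffDens, divv, pd_phi1 hε hf, trace_der1 hε hf, sum_der1_sq hε hf, Moduli.muC]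
  push_cast
  ring

/-- The pairing of the second fields sees the first Lamé moduli up to the shear moduli. -/
theorem pairing2 {Ω : Set Space} (hΩ : IsOpen Ω) (hb : Bornology.IsBounded Ω) (M₁ M₂ : Moduli) {z e : Space}
    {K d₀ d B : ℝ} (hP : Probe Ω z e K d₀) (hd : 0 < d) (hd₀ : d ≤ d₀)
    (hB₁ : (20 * ‖M₁.muC z‖ + 180 * ‖M₁.AC z‖) * 729 ≤ B)
    (hB₂ : (20 * ‖M₂.muC z‖ + 180 * ‖M₂.AC z‖) * 729 ≤ B) (hμ : M₁.mu z = M₂.mu z) {L : ℝ} {p : ℕ}
    (hL : 0 ≤ L) (hp : 4 ≤ p)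
    (hgap : ∀ x ∈ Ω, |M₁.mu x - M₂.mu x| * wt (z + d • e) d 6 x ≤ L * wt (z + d • e) d p x) :
    4 * M₁.mu z ^ 2 * |∫ x in Ω, (M₁.lam x - M₂.lam x) * dens2 (z + d • e) e (eps' d) x| ≤
      ‖∫ x in Ω, diffDens M₁ M₂ (phi2 (z + d • e) e (eps' d) (M₂.muC z) (M₂.AC z))
          (phi2 (z + d • e) e (eps' d) (M₁.muC z) (M₁.AC z)) x‖ +
        18 * B ^ 2 * L * (d⁻¹ ^ p * d ^ 3 * ∫ x : Space, wt 0 1 p x) := by
  set y := z + d • e with hy
  set Φ := phi2 y e (eps' d) (M₂.muC z) (M₂.AC z) with hΦ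
  set Ψ := phi2 y e (eps' d) (M₁.muC z) (M₁.AC z) with hΨ
  have hε := eps'_pos hd
  have hB : 0 ≤ B := le_trans (by positivity) hB₁
  set S : Space → ℂ := fun x => 2 * (M₁.muC x - M₂.muC x) * ∑ i, ∑ j,
    ((pd j (fun w => Φ w i) x + pd i (fun w => Φ w j) x) / 2) *
      ((pd j (fun w => Ψ w i) x + pd i (fun w => Ψ w j) x) / 2) with hSdef
  have hSc : Continuous S := by
    have c1 := M₁.contDiff_muC.continuous; have c2 := M₂.contDiff_muC.continuous
    have c7 := fun i j => (contDiff_pd (contDiff_pi.1 (contDiff_phi2 (y := y) (e := e) hε (M₂.muC z) (M₂.AC z)) i) j).continuous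
    have c8 := fun i j => (contDiff_pd (contDiff_pi.1 (contDiff_phi2 (y := y) (e := e) hε (M₁.muC z) (M₁.AC z)) i) j).continuous
    simp only [hSdef, hΦ, hΨ]
    fun_prop
  have hΦ1 : ContDiff ℝ 1 Φ := (contDiff_phi2 hε _ _).of_le (by simp)
  have hΨ1 : ContDiff ℝ 1 Ψ := (contDiff_phi2 hε _ _).of_le (by simp)
  have e1 : ∀ x ∈ Ω, diffDens M₁ M₂ Φ Ψ x =
      ((4 * M₁.mu z ^ 2 * ((M₁.lam x - M₂.lam x) * dens2 y e (eps' d) x) : ℝ) : ℂ) + S x := by
    intro x hx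
    have hf : Far y (eps' d) x := (far_of_dist hd (hP.away d hd hd₀ x hx)).1
    have hμ' : M₂.muC z = M₁.muC z := by simp [Moduli.muC, hμ]
    have d1 : divv Φ x = div2 y e (eps' d) (M₁.muC z) x := by
      rw [← hμ']; simp only [divv, hΦ, pd_phi2 hε hf]; exact trace_der2 hε hf hP.unit _ _
    have d2 : divv Ψ x = div2 y e (eps' d) (M₁.muC z) x := by
      simp only [divv, hΨ, pd_phi2 hε hf]; exact trace_der2 hε hf hP.unit _ _
    simp only [diffDens, hSdef, d1, d2, div2_sq, Moduli.lamC, Moduli.muC]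
    push_cast
    ring
  have i1 : IntegrableOn (fun x => 4 * M₁.mu z ^ 2 * ((M₁.lam x - M₂.lam x) * dens2 y e (eps' d) x)) Ω :=
    integrableOn_of_continuous hb (continuous_const.mul
      ((M₁.lam_smooth.continuous.sub M₂.lam_smooth.continuous).mul (continuous_dens y e hd).2))
  have e2 : ∫ x in Ω, diffDens M₁ M₂ Φ Ψ x =
      ((4 * M₁.mu z ^ 2 * ∫ x in Ω, (M₁.lam x - M₂.lam x) * dens2 y e (eps' d) x : ℝ) : ℂ) +
        ∫ x in Ω, S x := by
    rw [← integral_const_mul, ← integral_complex_ofReal]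
    exact (setIntegral_congr_fun hΩ.measurableSet e1).trans
      (integral_add i1.ofReal (integrableOn_of_continuous hb hSc))
  have e3 : ‖∫ x in Ω, S x‖ ≤ 18 * B ^ 2 * L * (d⁻¹ ^ p * d ^ 3 * ∫ x : Space, wt 0 1 p x) := by
    refine (norm_integral_le_integral_norm _).trans
      (integral_le_wt (y := y) hΩ hb hd (by positivity) hp hSc.norm fun x hx => ?_)
    have hf : Far y (eps' d) x := (far_of_dist hd (hP.away d hd hd₀ x hx)).1
    have b1 := fun i j => (norm_der2_le hd hf (abs_le_one_of_unit hP.unit) (M₂.muC z) (M₂.AC z) i j).trans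
      (mul_le_mul_of_nonneg_right hB₂ (wt_nonneg hd 3 x))
    have b2 := fun i j => (norm_der2_le hd hf (abs_le_one_of_unit hP.unit) (M₁.muC z) (M₁.AC z) i j).trans
      (mul_le_mul_of_nonneg_right hB₁ (wt_nonneg hd 3 x))
    have eM : ‖M₁.muC x - M₂.muC x‖ = |M₁.mu x - M₂.mu x| := by
      simp only [Moduli.muC, ← Complex.ofReal_sub, Complex.norm_real, Real.norm_eq_abs]
    simp only [hSdef, hΦ, hΨ, pd_phi2 hε hf, norm_mul, Complex.norm_ofNat, eM]
    calc _ ≤ 2 * |M₁.mu x - M₂.mu x| * ∑ _i : Fin 3, ∑ _j : Fin 3,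
          (B * wt y d 3 x) * (B * wt y d 3 x) := by
            refine mul_le_mul_of_nonneg_left ((norm_sum_le _ _).trans (Finset.sum_le_sum fun i _ =>
              (norm_sum_le _ _).trans (Finset.sum_le_sum fun j _ => ?_))) (by positivity)
            rw [norm_mul, norm_div, norm_div, Complex.norm_ofNat]
            refine mul_le_mul ?_ ?_ (by positivity) (mul_nonneg hB (wt_nonneg hd 3 x))
            · linarith [norm_add_le (der2 y e (eps' d) (M₂.muC z) (M₂.AC z) i j x)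
                (der2 y e (eps' d) (M₂.muC z) (M₂.AC z) j i x), b1 i j, b1 j i]
            · linarith [norm_add_le (der2 y e (eps' d) (M₁.muC z) (M₁.AC z) i j x)
                (der2 y e (eps' d) (M₁.muC z) (M₁.AC z) j i x), b2 i j, b2 j i]
      _ = 18 * B ^ 2 * (|M₁.mu x - M₂.mu x| * wt y d 6 x) := by
            rw [show wt y d 6 x = wt y d 3 x * wt y d 3 x from (wt_mul_wt y d 3 3 x).symm]
            simp; ring
      _ ≤ 18 * B ^ 2 * (L * wt y d p x) := mul_le_mul_of_nonneg_left (hgap x hx) (by positivity)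
      _ = _ := by ring
  have e4 : ‖((4 * M₁.mu z ^ 2 * ∫ x in Ω, (M₁.lam x - M₂.lam x) * dens2 y e (eps' d) x : ℝ) : ℂ)‖ ≤
      ‖∫ x in Ω, diffDens M₁ M₂ Φ Ψ x‖ + ‖∫ x in Ω, S x‖ := by
    rw [eq_sub_of_add_eq e2.symm]
    exact norm_sub_le _ _
  rw [Complex.norm_real, Real.norm_eq_abs, abs_mul, abs_of_nonneg (by positivity : 0 ≤ 4 * M₁.mu z ^ 2)] at e4
  linarith

theorem values (hForm : FormStmt) (hSol : SolveStmt) (hDisp : DispSolStmt) {Ω : Set Space}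
    (hD : SmoothDomain Ω) (M₁ M₂ : Moduli) (hS : SameMap Ω M₁.lam M₁.mu M₂.lam M₂.mu) {z : Space}
    (hz : z ∈ frontier Ω) : M₁.lam z = M₂.lam z ∧ M₁.mu z = M₂.mu z := by
  obtain ⟨e, K, d₀, hP⟩ := exists_probe hD hz
  have hΩ := hD.isOpen
  have hb := hD.bounded
  set B := 729 * (4 + 20 * (‖M₁.muC z‖ + ‖M₂.muC z‖) + 180 * (‖M₁.AC z‖ + ‖M₂.AC z‖)) with hBdef
  have hn : 0 ≤ ‖M₁.muC z‖ ∧ 0 ≤ ‖M₂.muC z‖ ∧ 0 ≤ ‖M₁.AC z‖ ∧ 0 ≤ ‖M₂.AC z‖ :=
    ⟨norm_nonneg _, norm_nonneg _, norm_nonneg _, norm_nonneg _⟩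
  obtain ⟨C, hC, hcore⟩ := core hForm hSol hDisp hΩ hb M₁ M₂ hS hP (B := B) (by positivity)
  obtain ⟨r, hr⟩ := exists_radius hb z
  obtain ⟨L₁, hL₁, hl⟩ := taylor (M₁.lam_smooth.sub M₂.lam_smooth) z r
  obtain ⟨L₂, hL₂, hm⟩ := taylor (M₁.mu_smooth.sub M₂.mu_smooth) z r
  have hd₁ : 0 < min d₀ 1 := lt_min hP.d₀_pos one_pos
  have hv : ∀ d : ℝ, 0 < d → ∀ a X : ℝ, |a| * d⁻¹ ^ 3 ≤ X * d⁻¹ ^ 2 → |a| ≤ X * d := by
    intro d hd a X h
    calc |a| = |a| * d⁻¹ ^ 3 * d ^ 3 := by field_simp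
      _ ≤ X * d⁻¹ ^ 2 * d ^ 3 := by gcongr
      _ = X * d := by field_simp
  have hμ : M₁.mu z = M₂.mu z := by
    refine sub_eq_zero.1 (eq_zero_of_le_mul (C := 1000000 * (C + L₂ * (6 * 531441) *
      ∫ x : Space, wt 0 1 5 x)) hd₁ fun d hd hdd => ?_)
    have hd₀ := hdd.trans (min_le_left _ _)
    have hs : ∀ M : Moduli, Singular Ω M z (z + d • e) d B (phi1 (z + d • e) (eps' d)) := fun M =>
      singular_phi1 M hP hd hd₀ (by rw [hBdef]; linarith)
    have h := (hcore d hd hdd _ _ (hs M₂) (hs M₁)).1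
    rw [pairing1 hΩ M₁ M₂ hP hd hd₀, Complex.norm_real, Real.norm_eq_abs, abs_mul, abs_two] at h
    have h2 := integrand_value (q := dens1 (z + d • e) (eps' d)) (c := 6 * 531441) hΩ hb hP hd hd₀
      (by norm_num) hL₂ (M₁.mu_smooth.continuous.sub M₂.mu_smooth.continuous)
      (continuous_dens _ e hd).1 (fun x hx => (hm x (hr hx)).1) (fun x _ => (dens_nonneg _ e x _).1)
      (fun x hx => dens1_le hd (far_of_dist hd (hP.away d hd hd₀ x hx)).1)
      (fun x hx => (dens_lower hd rfl hP.unit hx).2.1)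
    refine hv d hd _ _ (h2.trans ?_)
    simp only [Pi.sub_apply]
    have := abs_nonneg (∫ x in Ω, (M₁.mu x - M₂.mu x) * dens1 (z + d • e) (eps' d) x)
    linarith
  refine ⟨sub_eq_zero.1 (eq_zero_of_le_mul (C := 1000000 * ((C + 18 * B ^ 2 * L₂ *
    ∫ x : Space, wt 0 1 5 x) / (4 * M₁.mu z ^ 2) + L₁ * (784 * 531441) * ∫ x : Space, wt 0 1 5 x)) hd₁
      fun d hd hdd => ?_), hμ⟩
  have hd₀ := hdd.trans (min_le_left _ _)
  have hB₁ : (20 * ‖M₁.muC z‖ + 180 * ‖M₁.AC z‖) * 729 ≤ B := by rw [hBdef]; linarith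
  have hB₂ : (20 * ‖M₂.muC z‖ + 180 * ‖M₂.AC z‖) * 729 ≤ B := by rw [hBdef]; linarith
  have h := (hcore d hd hdd _ _ (singular_phi2 M₂ hP hd hd₀ hB₂) (singular_phi2 M₁ hP hd hd₀ hB₁)).1
  have h1 := pairing2 hΩ hb M₁ M₂ hP hd hd₀ hB₁ hB₂ hμ (L := L₂) (p := 5) hL₂ (by norm_num)
    fun x hx => by
      have k := (hm x (hr hx)).1
      rw [hμ, sub_self, sub_zero] at k
      calc _ ≤ L₂ * (d + ‖x - (z + d • e)‖) * wt (z + d • e) d 6 x :=
            mul_le_mul_of_nonneg_right (k.trans (mul_le_mul_of_nonneg_left (dist_z_le hP.unit hd) hL₂))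
              (wt_nonneg hd 6 x)
        _ = _ := by rw [mul_assoc, mul_wt_succ hd 5 x]
  have h2 := integrand_value (q := dens2 (z + d • e) e (eps' d)) (c := 784 * 531441) hΩ hb hP hd hd₀
    (by norm_num) hL₁ (M₁.lam_smooth.continuous.sub M₂.lam_smooth.continuous)
    (continuous_dens _ e hd).2 (fun x hx => (hl x (hr hx)).1) (fun x _ => (dens_nonneg _ e x _).2)
    (fun x hx => dens2_le hd (far_of_dist hd (hP.away d hd hd₀ x hx)).1 (abs_le_one_of_unit hP.unit))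
    (fun x hx => (dens_lower hd rfl hP.unit hx).2.2)
  refine hv d hd _ _ (h2.trans ?_)
  simp only [Pi.sub_apply]
  have hm0 := M₁.mu_pos z
  have w5 : d⁻¹ ^ 5 * d ^ 3 = d⁻¹ ^ 2 := by field_simp
  rw [w5] at h1
  have h3 : |∫ x in Ω, (M₁.lam x - M₂.lam x) * dens2 (z + d • e) e (eps' d) x| ≤
      (C + 18 * B ^ 2 * L₂ * ∫ x : Space, wt 0 1 5 x) / (4 * M₁.mu z ^ 2) * d⁻¹ ^ 2 := by
    rw [div_mul_eq_mul_div, le_div_iff₀ (by positivity)]
    linarith
  linarith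

theorem slope_eq {f₁ f₂ : Space → ℝ} (h₁ : ContDiff ℝ ∞ f₁) (h₂ : ContDiff ℝ ∞ f₂) (z v : Space) :
    fderiv ℝ (fun w => f₁ w - f₂ w) z v = fderiv ℝ f₁ z v - fderiv ℝ f₂ z v := by
  rw [fderiv_fun_sub (h₁.differentiable (by simp) z) (h₂.differentiable (by simp) z)]
  rfl

theorem slopes (hForm : FormStmt) (hSol : SolveStmt) (hDisp : DispSolStmt) {Ω : Set Space}
    (hD : SmoothDomain Ω) (M₁ M₂ : Moduli) (hS : SameMap Ω M₁.lam M₁.mu M₂.lam M₂.mu) {z : Space}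
    (hz : z ∈ frontier Ω) :
    fderiv ℝ M₁.lam z = fderiv ℝ M₂.lam z ∧ fderiv ℝ M₁.mu z = fderiv ℝ M₂.mu z := by
  have hval := fun w (hw : w ∈ frontier Ω) => values hForm hSol hDisp hD M₁ M₂ hS hw
  obtain ⟨el, em⟩ := hval z hz
  obtain ⟨e, K, d₀, hP⟩ := exists_probe hD hz
  have hΩ := hD.isOpen
  have hb := hD.bounded
  have hK := hP.K_nonneg
  set B := 729 * (4 + 20 * (‖M₁.muC z‖ + ‖M₂.muC z‖) + 180 * (‖M₁.AC z‖ + ‖M₂.AC z‖)) with hBdef
  have hn : 0 ≤ ‖M₁.muC z‖ ∧ 0 ≤ ‖M₂.muC z‖ ∧ 0 ≤ ‖M₁.AC z‖ ∧ 0 ≤ ‖M₂.AC z‖ :=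
    ⟨norm_nonneg _, norm_nonneg _, norm_nonneg _, norm_nonneg _⟩
  obtain ⟨C, hC, hcore⟩ := core hForm hSol hDisp hΩ hb M₁ M₂ hS hP (B := B) (by positivity)
  obtain ⟨r, hr⟩ := exists_radius hb z
  obtain ⟨cl, hcl⟩ := hP.tangent (fun w => M₁.lam w - M₂.lam w) (M₁.lam_smooth.sub M₂.lam_smooth)
    fun w hw => sub_eq_zero.2 (hval w hw).1
  obtain ⟨cm, hcm⟩ := hP.tangent (fun w => M₁.mu w - M₂.mu w) (M₁.mu_smooth.sub M₂.mu_smooth)
    fun w hw => sub_eq_zero.2 (hval w hw).2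
  obtain ⟨L₁, hL₁, hl'⟩ := taylor (f := fun w => M₁.lam w - M₂.lam w) (M₁.lam_smooth.sub M₂.lam_smooth) z r
  obtain ⟨L₂, hL₂, hm'⟩ := taylor (f := fun w => M₁.mu w - M₂.mu w) (M₁.mu_smooth.sub M₂.mu_smooth) z r
  have hl : ∀ x ∈ Ω, |M₁.lam x - M₂.lam x - cl * edot e (x - z)| ≤ L₁ * ‖x - z‖ ^ 2 := fun x hx => by
    have := (hl' x (hr hx)).2
    rwa [hcl, el, sub_self, sub_zero] at this
  have hm : ∀ x ∈ Ω, |M₁.mu x - M₂.mu x - cm * edot e (x - z)| ≤ L₂ * ‖x - z‖ ^ 2 := fun x hx => by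
    have := (hm' x (hr hx)).2
    rwa [hcm, em, sub_self, sub_zero] at this
  set I := ∫ x : Space, wt 0 1 4 x with hI
  have hI0 : 0 ≤ I := integral_wt_nonneg 4
  have hd₁ : 0 < min d₀ 1 := lt_min hP.d₀_pos one_pos
  have hv : ∀ d : ℝ, 0 < d → ∀ a X : ℝ, |a| * d⁻¹ ^ 2 ≤ X * d⁻¹ → |a| ≤ X * d := by
    intro d hd a X h
    calc |a| = |a| * d⁻¹ ^ 2 * d ^ 2 := by field_simp
      _ ≤ X * d⁻¹ * d ^ 2 := by gcongr
      _ = X * d := by field_simp
  have hcm0 : cm = 0 := by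
    refine eq_zero_of_le_mul (C := 500000 * (C + (L₂ + |cm| * K) * (6 * 531441) * I)) hd₁ fun d hd hdd => ?_
    have hd₀ := hdd.trans (min_le_left _ _)
    have hs : ∀ M : Moduli, Singular Ω M z (z + d • e) d B (phi1 (z + d • e) (eps' d)) := fun M =>
      singular_phi1 M hP hd hd₀ (by rw [hBdef]; linarith)
    have h := (hcore d hd hdd _ _ (hs M₂) (hs M₁)).2 el em
    rw [pairing1 hΩ M₁ M₂ hP hd hd₀, Complex.norm_real, Real.norm_eq_abs, abs_mul, abs_two] at h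
    have h2 := integrand_slope (q := dens1 (z + d • e) (eps' d)) (c := 6 * 531441) hΩ hb hP hd hd₀
      (by norm_num) hL₂ (f := fun x => M₁.mu x - M₂.mu x)
      (M₁.mu_smooth.continuous.sub M₂.mu_smooth.continuous)
      (continuous_dens _ e hd).1 hm (fun x _ => (dens_nonneg _ e x _).1)
      (fun x hx => dens1_le hd (far_of_dist hd (hP.away d hd hd₀ x hx)).1)
      (fun x hx => (dens_lower hd rfl hP.unit hx).2.1)
    refine hv d hd _ _ (h2.trans ?_)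
    have := abs_nonneg (∫ x in Ω, (M₁.mu x - M₂.mu x) * dens1 (z + d • e) (eps' d) x)
    rw [← hI]
    linarith
  have hm2 : ∀ x ∈ Ω, |M₁.mu x - M₂.mu x| ≤ L₂ * ‖x - z‖ ^ 2 := fun x hx => by
    have := hm x hx
    rwa [hcm0, zero_mul, sub_zero] at this
  have hcl0 : cl = 0 := by
    refine eq_zero_of_le_mul (C := 500000 * ((C + 18 * B ^ 2 * L₂ * I) / (4 * M₁.mu z ^ 2) +
      (L₁ + |cl| * K) * (784 * 531441) * I)) hd₁ fun d hd hdd => ?_
    have hd₀ := hdd.trans (min_le_left _ _)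
    have hB₁ : (20 * ‖M₁.muC z‖ + 180 * ‖M₁.AC z‖) * 729 ≤ B := by rw [hBdef]; linarith
    have hB₂ : (20 * ‖M₂.muC z‖ + 180 * ‖M₂.AC z‖) * 729 ≤ B := by rw [hBdef]; linarith
    have h := (hcore d hd hdd _ _ (singular_phi2 M₂ hP hd hd₀ hB₂)
      (singular_phi2 M₁ hP hd hd₀ hB₁)).2 el em
    have h1 := pairing2 hΩ hb M₁ M₂ hP hd hd₀ hB₁ hB₂ em (L := L₂) (p := 4) hL₂ le_rfl fun x hx => by
      calc _ ≤ L₂ * (d + ‖x - (z + d • e)‖) ^ 2 * wt (z + d • e) d 6 x :=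
            mul_le_mul_of_nonneg_right ((hm2 x hx).trans (mul_le_mul_of_nonneg_left
              (pow_le_pow_left₀ (norm_nonneg _) (dist_z_le hP.unit hd) 2) hL₂)) (wt_nonneg hd 6 x)
        _ = _ := by rw [← mul_wt_succ hd 4 x, ← mul_wt_succ hd 5 x]; ring
    have h2 := integrand_slope (q := dens2 (z + d • e) e (eps' d)) (c := 784 * 531441) hΩ hb hP hd hd₀
      (by norm_num) hL₁ (f := fun x => M₁.lam x - M₂.lam x)
      (M₁.lam_smooth.continuous.sub M₂.lam_smooth.continuous)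
      (continuous_dens _ e hd).2 hl (fun x _ => (dens_nonneg _ e x _).2)
      (fun x hx => dens2_le hd (far_of_dist hd (hP.away d hd hd₀ x hx)).1 (abs_le_one_of_unit hP.unit))
      (fun x hx => (dens_lower hd rfl hP.unit hx).2.2)
    refine hv d hd _ _ (h2.trans ?_)
    have hm0 := M₁.mu_pos z
    have w4 : d⁻¹ ^ 4 * d ^ 3 = d⁻¹ := by field_simp
    rw [w4, ← hI] at h1
    rw [← hI]
    have h3 : |∫ x in Ω, (M₁.lam x - M₂.lam x) * dens2 (z + d • e) e (eps' d) x| ≤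
        (C + 18 * B ^ 2 * L₂ * I) / (4 * M₁.mu z ^ 2) * d⁻¹ := by
      rw [div_mul_eq_mul_div, le_div_iff₀ (by positivity)]
      linarith
    linarith
  constructor
  · refine ContinuousLinearMap.ext fun v => sub_eq_zero.1 ?_
    rw [← slope_eq M₁.lam_smooth M₂.lam_smooth, hcl, hcl0, zero_mul]
  · refine ContinuousLinearMap.ext fun v => sub_eq_zero.1 ?_
    rw [← slope_eq M₁.mu_smooth M₂.mu_smooth, hcm, hcm0, zero_mul]

end

end Vale.Agent.P136.Full.Boundary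

namespace Vale.Agent.P136.Full

/-- Module F: equal maps determine the moduli to first order at the boundary. -/
theorem boundary : FormStmt → SolveStmt → DispSolStmt → BoundaryStmt :=
  fun hForm hSol hDisp _Ω M₁ M₂ hD hS _z hz =>
    ⟨(Boundary.values hForm hSol hDisp hD M₁ M₂ hS hz).1,
      (Boundary.values hForm hSol hDisp hD M₁ M₂ hS hz).2,
      (Boundary.slopes hForm hSol hDisp hD M₁ M₂ hS hz).1,
      (Boundary.slopes hForm hSol hDisp hD M₁ M₂ hS hz).2⟩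

end Vale.Agent.P136.Full
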